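import Vale.Agent.P167.E2.Orb

/-!
# P167, block E2: the polygon, and existence of the interface
-/

namespace Vale.Agent.P167.E2

open Vale.Agent.P167.E6

variable {n : ℕ} {p : ZMod n → ℤ × ℤ} {S : Finset (ℤ × ℤ)} {k : ℕ} {A : Finset (Sym2 (ℤ × ℤ))}

/-- The direction of the edge of the polygon after `p i`. -/
noncomputable def ro (p : ZMod n → ℤ × ℤ) (i : ZMod n) : Fin 4 :=
  Classical.epsilon fun r => p (i + 1) = p i + dir r

theorem ro_spec (hp : IsPolygon p) (i : ZMod n) : p (i + 1) = p i + dir (ro p i) :=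
  Classical.epsilon_spec (hp.2.2 i)

theorem ro_unique (hp : IsPolygon p) {i : ZMod n} {r : Fin 4} (h : p (i + 1) = p i + dir r) :
    r = ro p i :=
  add_dir_inj (v := p i) (by rw [← h, ro_spec hp])

/-- The direction from `p i` back to `p (i - 1)`. -/
noncomputable def ri (p : ZMod n → ℤ × ℤ) (i : ZMod n) : Fin 4 := ro p (i - 1) + 2

theorem ri_spec (hp : IsPolygon p) (i : ZMod n) : p (i - 1) = p i + dir (ri p i) := by
  have h := ro_spec hp (i - 1)
  rw [sub_add_cancel] at h
  rw [h, ri, dir_add_two']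

theorem ri_unique (hp : IsPolygon p) {i : ZMod n} {r : Fin 4} (h : p (i - 1) = p i + dir r) :
    r = ri p i :=
  add_dir_inj (v := p i) (by rw [← h, ri_spec hp])

variable (hp : IsPolygon p) (hS : Encloses p S)
include hp hS

theorem enc_out {i : ZMod n} : face (p i) (ro p i) ∈ S ∧ face (p i) (ro p i - 1) ∉ S :=
  (hS _ _).1 ⟨i, rfl, ro_spec hp i⟩

theorem enc_iff {i : ZMod n} {r : Fin 4} :
    (face (p i) r ∈ S ∧ face (p i) (r - 1) ∉ S) ↔ r = ro p i := by
  constructor
  · intro h
    obtain ⟨j, h1, h2⟩ := (hS _ _).2 h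
    have h3 := hp.2.1 h1
    subst h3
    exact ro_unique hp h2
  · rintro rfl
    exact enc_out hp hS

theorem enc_in {i : ZMod n} : face (p i) (ri p i) ∉ S ∧ face (p i) (ri p i - 1) ∈ S := by
  obtain ⟨h1, h2⟩ := enc_out hp hS (i := i - 1)
  have h := ro_spec hp (i - 1)
  rw [sub_add_cancel] at h
  constructor
  · rw [ri, h, face_right]
    exact h2
  · rw [ri, h]
    have : ro p (i - 1) + 2 - 1 = ro p (i - 1) + 1 := by
      generalize ro p (i - 1) = r
      revert r
      decide
    rw [this, face_left]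
    exact h1

omit hp in
/-- A vertex with faces in and out of the domain is on the polygon. -/
theorem exists_of_mixed {v : ℤ × ℤ} {r s : Fin 4} (hr : face v r ∈ S) (hs : face v s ∉ S) :
    ∃ i, p i = v := by
  have key : ∃ t : Fin 4, face v t ∈ S ∧ face v (t - 1) ∉ S := by
    by_contra hc
    push Not at hc
    have h1 := hc r hr
    have h2 := hc _ h1
    have h3 := hc _ h2
    have : s = r ∨ s = r - 1 ∨ s = r - 1 - 1 ∨ s = r - 1 - 1 - 1 := by
      clear hr hs h1 h2 h3
      revert r s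
      decide
    rcases this with e | e | e | e <;> subst e
    exacts [hs hr, hs h1, hs h2, hs h3]
  obtain ⟨t, ht⟩ := key
  obtain ⟨i, h1, -⟩ := (hS _ _).2 ht
  exact ⟨i, h1⟩

omit hp hS in
theorem block_aux : ∀ (b0 b1 b2 b3 : Bool) (a b : Fin 4),
    (∀ r : Fin 4, (![b0, b1, b2, b3] r = true ∧ ![b0, b1, b2, b3] (r - 1) = false) ↔ r = a) →
    ![b0, b1, b2, b3] b = false → ![b0, b1, b2, b3] (b - 1) = true →
    ∀ t : Fin 4, (![b0, b1, b2, b3] t = false ↔ (t - b).val < (a - b).val) := by
  decide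

/-- The exterior faces around `p i`. -/
theorem ext_iff {i : ZMod n} {r : Fin 4} :
    face (p i) r ∉ S ↔ (r - ri p i).val < (ro p i - ri p i).val := by
  classical
  have h := block_aux (decide (face (p i) 0 ∈ S)) (decide (face (p i) 1 ∈ S))
    (decide (face (p i) 2 ∈ S)) (decide (face (p i) 3 ∈ S)) (ro p i) (ri p i)
  have e : ∀ r : Fin 4, ![decide (face (p i) 0 ∈ S), decide (face (p i) 1 ∈ S),
      decide (face (p i) 2 ∈ S), decide (face (p i) 3 ∈ S)] r = decide (face (p i) r ∈ S) := by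
    refine forall4 ?_ ?_ ?_ ?_ <;> rfl
  simp only [e, decide_eq_true_eq, decide_eq_false_iff_not] at h
  exact h (fun r => enc_iff hp hS) (enc_in hp hS).1 (enc_in hp hS).2 r

theorem ri_ne_ro {i : ZMod n} : ri p i ≠ ro p i := by
  intro h
  have h1 := (enc_in hp hS (i := i)).1
  rw [h] at h1
  exact h1 (enc_out hp hS).1

theorem p_mem_verts (i : ZMod n) : p i ∈ verts S := mem_verts.2 ⟨_, (enc_out hp hS (i := i)).1⟩

theorem p_edge (i : ZMod n) : s(p i, p (i + 1)) ∈ edges S := by
  rw [ro_spec hp i, mem_edges]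
  exact Or.inl (enc_out hp hS).1

theorem wired_sub (hA : A ⊆ edges S) : wiredOpen p k A ⊆ edges S := by
  rintro e (h | ⟨i, -, -, rfl⟩)
  · exact hA h
  · exact p_edge hp hS i

omit hp hS in
theorem not_open_ext {v : ℤ × ℤ} {r : Fin 4} {ω : Set (Sym2 (ℤ × ℤ))} (hω : ω ⊆ edges S)
    (h1 : face v (r + 1) ∉ S) (h2 : face v r ∉ S) : ahead (v, r) ∉ ω := by
  intro h
  have h3 := (mem_edges (r + 1)).1 (hω h)
  rw [fin4_2] at h3
  tauto

omit hp hS in
theorem val_aux : ∀ (a b : Fin 4) (t : ℕ), t < 4 → t + 1 < (a - b).val →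
    ((b + Fin.ofNat 4 t) - b).val < (a - b).val ∧
      ((b + Fin.ofNat 4 t + 1) - b).val < (a - b).val := by
  intro a b t ht
  interval_cases t <;> revert a b <;> decide

/-- Around the vertex `p i` on the outer side. -/
theorem around {ω : Set (Sym2 (ℤ × ℤ))} (hω : ω ⊆ edges S) (i : ZMod n) (t : ℕ)
    (ht : t < (ro p i - ri p i).val) :
    (next ω)^[t] (p i, ri p i) = (p i, ri p i + Fin.ofNat 4 t) := by
  induction t with
  | zero =>
    simp only [Function.iterate_zero, id]
    have : ri p i + Fin.ofNat 4 0 = ri p i := by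
      generalize ri p i = r
      revert r
      decide
    rw [this]
  | succ t ih =>
    rw [Function.iterate_succ_apply', ih (by omega)]
    obtain ⟨h1, h2⟩ := val_aux (ro p i) (ri p i) t (by omega) ht
    rw [next_closed (not_open_ext hω ((ext_iff hp hS).2 h2) ((ext_iff hp hS).2 h1))]
    have h3 : t < 4 := by omega
    have : ri p i + Fin.ofNat 4 t + 1 = ri p i + Fin.ofNat 4 (t + 1) := by
      clear h1 h2 ht ih
      generalize ri p i = r
      interval_cases t <;> revert r <;> decide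
    rw [this]

omit hp hS in
theorem cast_aux : ∀ a b : Fin 4, a ≠ b → b + Fin.ofNat 4 ((a - b).val - 1) = a - 1 := by
  decide

theorem around' {ω : Set (Sym2 (ℤ × ℤ))} (hω : ω ⊆ edges S) (i : ZMod n) :
    (next ω)^[(ro p i - ri p i).val - 1] (p i, ri p i) = (p i, ro p i - 1) := by
  have h0 : ro p i ≠ ri p i := (ri_ne_ro hp hS).symm
  have h1 : 0 < (ro p i - ri p i).val := by
    rw [Nat.pos_iff_ne_zero]
    intro h
    exact h0 (sub_eq_zero.1 (Fin.ext h))
  rw [around hp hS hω i _ (by omega), cast_aux _ _ h0]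

/-- From the exit to the start along the wired arc. -/
theorem wired_chain (hA : A ⊆ edges S) (j : ℕ) (hj : k + j < n) :
    ∃ a, (next (wiredOpen p k A))^[a] (p (k : ZMod n), ri p (k : ZMod n)) =
      (p ((k + j : ℕ) : ZMod n), ro p ((k + j : ℕ) : ZMod n) - 1) := by
  have hω := wired_sub (k := k) hp hS hA
  induction j with
  | zero => exact ⟨_, around' hp hS hω _⟩
  | succ j ih =>
    obtain ⟨a, ha⟩ := ih (by omega)
    set i : ZMod n := ((k + j : ℕ) : ZMod n) with hi
    have hi1 : ((k + (j + 1) : ℕ) : ZMod n) = i + 1 := by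
      rw [hi]
      push_cast
      ring
    refine ⟨((ro p (i + 1) - ri p (i + 1)).val - 1) + (1 + a), ?_⟩
    rw [hi1, Function.iterate_add_apply, Function.iterate_add_apply, ha, Function.iterate_one]
    have h1 : ahead (p i, ro p i - 1) ∈ wiredOpen p k A := by
      refine Or.inr ⟨k + j, by omega, by omega, ?_⟩
      rw [ahead]
      simp only [fin4_1]
      rw [← ro_spec hp i]
    rw [next_open h1]
    simp only [fin4_1]
    rw [← ro_spec hp i]
    have h2 : ro p i - 1 - 1 = ri p (i + 1) := by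
      rw [ri, add_sub_cancel_right]
      generalize ro p i = r
      revert r
      decide
    rw [h2]
    exact around' hp hS hω _

/-- The start. -/
noncomputable def cs (p : ZMod n → ℤ × ℤ) : Medial := (p (-1), ro p (-1) - 1)

/-- The exit. -/
noncomputable def ce (p : ZMod n → ℤ × ℤ) (k : ℕ) : Medial := (p (k : ZMod n), ri p (k : ZMod n))

theorem exists_exit (hk : k < n) (hA : A ⊆ edges S) :
    ∃ b, 0 < b ∧ (next (wiredOpen p k A))^[b] (cs p) = ce p k := by
  obtain ⟨a, ha⟩ := wired_chain (k := k) hp hS hA (n - 1 - k) (by omega)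
  have h1 : ((k + (n - 1 - k) : ℕ) : ZMod n) = -1 := by
    have : k + (n - 1 - k) = n - 1 := by omega
    rw [this, Nat.cast_sub (by have := hp.1; omega)]
    simp
  rw [h1] at ha
  obtain ⟨b, hb, he⟩ := exists_back (wired_sub (k := k) hp hS hA)
    (c := ce p k) (p_mem_verts hp hS _) a
  refine ⟨b, hb, ?_⟩
  rw [← he]
  congr 1
  exact ha.symm

end Vale.Agent.P167.E2
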