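import Vale.Agent.P167.E2.Curve

/-!
# P167, block E2: the corner curve is inside the enlarged domain and close to the interface
-/

namespace Vale.Agent.P167.E2

open Vale.Agent.P167.E6 Set Filter Topology

variable {S : Finset (ℤ × ℤ)}

theorem mem_region_of {δ : ℝ} (hδ : 0 ≤ δ) {f : ℤ × ℤ} (hf : f ∈ S) {w : ℂ} (h1 : f.1 ≤ w.re)
    (h2 : w.re ≤ f.1 + 1) (h3 : f.2 ≤ w.im) (h4 : w.im ≤ f.2 + 1) : (δ : ℂ) * w ∈ region δ S := by
  refine ⟨f, hf, ?_⟩
  rw [Complex.re_ofReal_mul, Complex.im_ofReal_mul]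
  exact ⟨mul_le_mul_of_nonneg_left h1 hδ, mul_le_mul_of_nonneg_left h2 hδ,
    mul_le_mul_of_nonneg_left h3 hδ, mul_le_mul_of_nonneg_left h4 hδ⟩

theorem mem_region_edge {δ : ℝ} (hδ : 0 ≤ δ) {v : ℤ × ℤ} (r : Fin 4)
    (h : s(v, v + dir r) ∈ edges S) {σ : ℝ} (h0 : 0 ≤ σ) (h1 : σ ≤ 1) :
    (δ : ℂ) * epn v σ r ∈ region δ S := by
  have hre := epn_re v σ r
  have him := epn_im v σ r
  rcases (mem_edges r).1 h with h2 | h2
  all_goals
    refine mem_region_of hδ h2 ?_ ?_ ?_ ?_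
    all_goals
      first | rw [hre] | rw [him]
      clear h h2 hre him
      revert r
      refine forall4 ?_ ?_ ?_ ?_ <;>
        simp only [face0, face1, face2, face3, f4_0m, f4_1m, f4_2m, f4_3m, pd0, pd1, pd2, pd3] <;>
        push_cast <;> linarith

theorem mem_region_vertex {δ : ℝ} (hδ : 0 ≤ δ) {v : ℤ × ℤ} (h : v ∈ verts S) :
    (δ : ℂ) * pt v ∈ region δ S := by
  obtain ⟨r, hr⟩ := mem_verts.1 h
  have h1 := mem_region_edge (S := S) hδ (v := v) r ((mem_edges r).2 (Or.inl hr)) le_rfl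
    zero_le_one
  simpa [epn] using h1

theorem mem_Om_of {δ : ℝ} (hδ : 0 < δ) {w u : ℂ} (hw : (δ : ℂ) * w ∈ region δ S)
    (h1 : |u.re| < 3 / 8) (h2 : |u.im| < 3 / 8) : (δ : ℂ) * (w + u) ∈ Om δ S := by
  refine ⟨_, hw, ?_, ?_⟩
  · rw [Complex.re_ofReal_mul, Complex.re_ofReal_mul, ← mul_sub, Complex.add_re,
      add_sub_cancel_left, abs_mul, abs_of_pos hδ]
    nlinarith
  · rw [Complex.im_ofReal_mul, Complex.im_ofReal_mul, ← mul_sub, Complex.add_im,
      add_sub_cancel_left, abs_mul, abs_of_pos hδ]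
    nlinarith

theorem abs_sq_re (r : Fin 4) : |(sq r).re| = 1 := by
  rcases sq_re r with h | h <;> rw [h] <;> norm_num

theorem abs_sq_im (r : Fin 4) : |(sq r).im| = 1 := by
  rcases sq_im r with h | h <;> rw [h] <;> norm_num

theorem cpt_mem_Om {δ : ℝ} (hδ : 0 < δ) {c : Medial} (hc : c.1 ∈ verts S) {θ : ℝ} (h0 : 0 ≤ θ)
    (h1 : θ < 3 / 8) : (δ : ℂ) * cpt θ c ∈ Om δ S := by
  unfold cpt
  refine mem_Om_of hδ (mem_region_vertex hδ.le hc) ?_ ?_
  · rw [Complex.re_ofReal_mul, abs_mul, abs_sq_re, abs_of_nonneg h0]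
    linarith
  · rw [Complex.im_ofReal_mul, abs_mul, abs_sq_im, abs_of_nonneg h0]
    linarith

theorem conv_lt {x y σ : ℝ} (hx : |x| = 1) (hy : |y| = 1) (h0 : 0 ≤ σ) (h1 : σ ≤ 1) :
    |(1 - σ) * (1 / 4 * x) + σ * (1 / 4 * y)| < 3 / 8 := by
  have a1 : x ≤ 1 := hx ▸ le_abs_self x
  have a2 : -x ≤ 1 := hx ▸ neg_le_abs x
  have b1 : y ≤ 1 := hy ▸ le_abs_self y
  have b2 : -y ≤ 1 := hy ▸ neg_le_abs y
  rw [abs_lt]
  constructor <;> nlinarith

/-- A step of the corner path stays in the enlarged domain. -/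
theorem step_mem_Om {δ : ℝ} (hδ : 0 < δ) {ω : Set (Sym2 (ℤ × ℤ))} (hω : ω ⊆ edges S)
    {c : Medial} (hc : c.1 ∈ verts S) {σ : ℝ} (h0 : 0 ≤ σ) (h1 : σ ≤ 1) :
    (δ : ℂ) * (cpt (1 / 4) c + (σ : ℂ) * (cpt (1 / 4) (next ω c) - cpt (1 / 4) c)) ∈ Om δ S := by
  by_cases h : ahead c ∈ ω
  · have e : cpt (1 / 4) c + (σ : ℂ) * (cpt (1 / 4) (next ω c) - cpt (1 / 4) c) =
        epn c.1 σ (c.2 + 1) +
          ((1 - σ : ℝ) * ((1 / 4 : ℝ) * sq c.2) + (σ : ℝ) * ((1 / 4 : ℝ) * sq (c.2 - 1))) := by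
      rw [next_open h]
      simp only [cpt, epn, pt_add]
      push_cast
      ring
    rw [e]
    refine mem_Om_of hδ (mem_region_edge hδ.le _ (hω h) h0 h1) ?_ ?_
    · rw [Complex.add_re, Complex.re_ofReal_mul, Complex.re_ofReal_mul, Complex.re_ofReal_mul,
        Complex.re_ofReal_mul]
      exact conv_lt (abs_sq_re _) (abs_sq_re _) h0 h1
    · rw [Complex.add_im, Complex.im_ofReal_mul, Complex.im_ofReal_mul, Complex.im_ofReal_mul,
        Complex.im_ofReal_mul]
      exact conv_lt (abs_sq_im _) (abs_sq_im _) h0 h1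
  · have e : cpt (1 / 4) c + (σ : ℂ) * (cpt (1 / 4) (next ω c) - cpt (1 / 4) c) =
        pt c.1 + ((1 - σ : ℝ) * ((1 / 4 : ℝ) * sq c.2) + (σ : ℝ) * ((1 / 4 : ℝ) * sq (c.2 + 1))) := by
      rw [next_closed h]
      simp only [cpt]
      push_cast
      ring
    rw [e]
    refine mem_Om_of hδ (mem_region_vertex hδ.le hc) ?_ ?_
    · rw [Complex.add_re, Complex.re_ofReal_mul, Complex.re_ofReal_mul, Complex.re_ofReal_mul,
        Complex.re_ofReal_mul]
      exact conv_lt (abs_sq_re _) (abs_sq_re _) h0 h1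
    · rw [Complex.add_im, Complex.im_ofReal_mul, Complex.im_ofReal_mul, Complex.im_ofReal_mul,
        Complex.im_ofReal_mul]
      exact conv_lt (abs_sq_im _) (abs_sq_im _) h0 h1

variable {n : ℕ} {p : ZMod n → ℤ × ℤ} {k : ℕ} {A : Finset (Sym2 (ℤ × ℤ))}

/-- The corner curve is inside the enlarged domain, except for its end points. -/
theorem pl_mem_Om (hp : IsPolygon p) (hS : Encloses p S) (hk : k < n) (hA : A ⊆ edges S) {δ : ℝ}
    (hδ : 0 < δ) {t : ℝ} (h0 : 0 < t) (h1 : t < nu p k A) : pl p k δ A t ∈ Om δ S := by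
  have hnu : (nu p k A : ℝ) = len p k A + 2 := by unfold nu; push_cast; ring
  rw [hnu] at h1
  unfold pl
  rcases lt_or_ge t 1 with h2 | h2
  · rw [lin_first h2.le]
    exact cpt_mem_Om hδ (p_mem_verts hp hS _) (by linarith) (by linarith)
  · rcases le_or_gt ((len p k A : ℝ) + 1) t with h3 | h3
    · rw [lin_last hp hS hk hA h3 h1.le]
      exact cpt_mem_Om hδ (p_mem_verts hp hS _) (by linarith) (by linarith)
    · have h5 : (0 : ℝ) ≤ t - 1 := by linarith
      have h6 := Nat.floor_le h5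
      have h7 := Nat.lt_floor_add_one (t - 1)
      set m := ⌊t - 1⌋₊ with hm
      have h8 : m < len p k A := by
        have : (m : ℝ) < len p k A := by linarith
        exact_mod_cast this
      rw [lin_eq _ (m + 1) (Or.inl (by push_cast; linarith)) (by push_cast; linarith),
        xv_mid h8.le, xv_mid (show m + 1 ≤ len p k A by omega), run_succ]
      exact step_mem_Om hδ (wired_sub hp hS hA) (run_mem hp hS hA m)
        (by push_cast; linarith) (by push_cast; linarith)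

/-! ### Comparison with the interface -/

theorem norm_le_of_coord {z : ℂ} {a b : ℝ} (h1 : |z.re| ≤ a) (h2 : |z.im| ≤ b) : ‖z‖ ≤ a + b :=
  (Complex.norm_le_abs_re_add_abs_im z).trans (add_le_add h1 h2)

theorem mid_cpt (c : Medial) : ‖(pt c.1 + pt (c.1 + dir (c.2 + 1))) / 2 - cpt (1 / 4) c‖ ≤ 1 / 2 := by
  obtain ⟨v, r⟩ := c
  have e : (pt v + pt (v + dir (r + 1))) / 2 - cpt (1 / 4) (v, r) =
      (1 / 2 : ℂ) * pt (dir (r + 1)) - (1 / 4 : ℂ) * sq r := by
    simp only [cpt, pt_add]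
    push_cast
    ring
  simp only
  rw [e]
  have h : (1 / 2 : ℝ) = 1 / 4 + 1 / 4 := by norm_num
  rw [h]
  clear e
  revert r
  refine forall4 ?_ ?_ ?_ ?_ <;> refine norm_le_of_coord ?_ ?_ <;>
    simp only [f4_01, f4_11, f4_21, f4_31, pd0, pd1, pd2, pd3, sq0, sq1, sq2, sq3, Complex.sub_re,
      Complex.sub_im, Complex.mul_re, Complex.mul_im, Complex.div_ofNat_re, Complex.div_ofNat_im,
      Complex.one_re, Complex.one_im] <;> norm_num [abs_le]

theorem cpt_step (ω : Set (Sym2 (ℤ × ℤ))) (c : Medial) :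
    ‖cpt (1 / 4) (next ω c) - cpt (1 / 4) c‖ ≤ 1 / 2 := by
  obtain ⟨r, hr⟩ := hl_next ω c
  have e : cpt (1 / 4) (next ω c) - cpt (1 / 4) c = (1 / 2 : ℂ) * pt (dir r) := by
    rw [cpt_hl, cpt_hl, hr, pt_add]
    ring
  rw [e, norm_mul]
  have h1 : ‖pt (dir r)‖ ≤ 1 := by
    clear hr e
    revert r
    have : (1 : ℝ) = 1 + 0 := by norm_num
    rw [this]
    refine forall4 ?_ ?_ ?_ ?_ <;> refine (norm_le_of_coord (a := |(pt (dir _)).re|)
      (b := |(pt (dir _)).im|) le_rfl le_rfl).trans ?_ <;>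
      simp only [pd0, pd1, pd2, pd3] <;> norm_num
  have h2 : ‖(1 / 2 : ℂ)‖ = 1 / 2 := by
    rw [norm_div]
    norm_num
  rw [h2]
  linarith

theorem cpt_end (c : Medial) : ‖cpt (1 / 4) c - cpt (3 / 8) c‖ ≤ 1 / 2 := by
  have e : cpt (1 / 4) c - cpt (3 / 8) c = ((-1 / 8 : ℝ) : ℂ) * sq c.2 := by
    simp only [cpt]
    push_cast
    ring
  rw [e]
  refine (norm_le_of_coord (a := 1 / 8) (b := 1 / 8) ?_ ?_).trans (by norm_num)
  · rw [Complex.re_ofReal_mul, abs_mul, abs_sq_re]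
    norm_num [abs_of_pos]
  · rw [Complex.im_ofReal_mul, abs_mul, abs_sq_im]
    norm_num [abs_of_pos]

theorem xv_step (hp : IsPolygon p) (hS : Encloses p S) (hk : k < n) (hA : A ⊆ edges S) :
    ∀ j < nu p k A, ‖xv p k A (j + 1) - xv p k A j‖ ≤ 1 / 2 := by
  intro j hj
  unfold nu at hj
  rcases Nat.eq_zero_or_pos j with h0 | h0
  · subst h0
    rw [xv_mid (Nat.zero_le _), xv_zero, run_zero]
    exact cpt_end _
  · obtain ⟨i, rfl⟩ : ∃ i, j = i + 1 := ⟨j - 1, by omega⟩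
    rcases (show i ≤ len p k A by omega).lt_or_eq with h1 | h1
    · rw [xv_mid h1, xv_mid h1.le, run_succ]
      exact cpt_step _ _
    · rw [h1, xv_last, xv_mid le_rfl, run_len hp hS hk hA, norm_sub_rev]
      exact cpt_end _

/-- The corner curve as a curve on `[0,1]`. -/
noncomputable def Xc (p : ZMod n → ℤ × ℤ) (k : ℕ) (δ : ℝ) (A : Finset (Sym2 (ℤ × ℤ))) :
    C(unitInterval, ℂ) where
  toFun t := pl p k δ A (t * nu p k A)
  continuous_toFun := (continuous_pl δ).comp (by fun_prop)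

theorem Xc_apply (δ : ℝ) (t : unitInterval) : Xc p k δ A t = pl p k δ A (t * nu p k A) := rfl

/-- **The interface and the corner curve are close.** -/
theorem dist_crv_Xc (hp : IsPolygon p) (hS : Encloses p S) (h0 : 0 < k) (hk : k < n)
    (hA : A ⊆ edges S) {δ : ℝ} (hδ : 0 ≤ δ) : dist (crv p k δ A) (Xc p k δ A) ≤ 2 * δ := by
  rw [ContinuousMap.dist_le (by positivity)]
  intro t
  rw [Xc_apply]
  have ht0 : (0 : ℝ) ≤ t := t.2.1
  have ht1 : (t : ℝ) ≤ 1 := t.2.2
  have h2 := two_le_len hp hS hk hA h0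
  have hm : ((len p k A - 1 : ℕ) : ℝ) = len p k A - 1 := by
    rw [Nat.cast_sub (by omega)]
    simp
  have hL : (2 : ℝ) ≤ len p k A := by exact_mod_cast h2
  have hnu : (nu p k A : ℝ) = len p k A + 2 := by unfold nu; push_cast; ring
  -- the interface
  have e1 : crv p k δ A t =
      (δ : ℂ) * lin (fun j => (pt (run p k A j).1 +
        pt ((run p k A j).1 + dir ((run p k A j).2 + 1))) / 2) (t * ((len p k A - 1 : ℕ) : ℝ)) := by
    change poly (fun j => mid δ (run p k A j)) (len p k A - 1) t = _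
    rw [poly_eq]
    unfold lin mid
    ring
  set s : ℝ := t * ((len p k A - 1 : ℕ) : ℝ) with hs
  have hs0 : 0 ≤ s := by positivity
  have hs1 : s ≤ ((len p k A - 1 : ℕ) : ℝ) := by
    rw [hs]
    nlinarith [show (0 : ℝ) ≤ ((len p k A - 1 : ℕ) : ℝ) from Nat.cast_nonneg _]
  -- shift by one
  have e2 : lin (xv p k A) (s + 1) = lin (fun j => xv p k A (j + 1)) s := by
    have h3 := Nat.floor_le hs0
    have h4 := Nat.lt_floor_add_one s
    rw [lin_eq _ (⌊s⌋₊ + 1) (Or.inl (by push_cast; linarith)) (by push_cast; linarith)]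
    unfold lin
    push_cast
    ring
  have h5 : ‖lin (fun j => (pt (run p k A j).1 +
        pt ((run p k A j).1 + dir ((run p k A j).2 + 1))) / 2) s -
      lin (fun j => xv p k A (j + 1)) s‖ ≤ 1 / 2 := by
    refine dist_lin_le (M := len p k A - 1) (fun j hj => ?_) hs0 hs1
    rw [xv_mid (by omega)]
    exact mid_cpt _
  have h6 : ‖lin (xv p k A) (s + 1) - lin (xv p k A) (t * nu p k A)‖ ≤ 1 := by
    have hlip := @lin_lip (xv p k A) (nu p k A) (1 / 2) (xv_step hp hS hk hA)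
    have hd : t * (nu p k A : ℝ) - (s + 1) = 3 * t - 1 := by
      rw [hs, hm, hnu]
      ring
    rcases le_total (s + 1) (t * nu p k A) with h7 | h7
    · rw [norm_sub_rev]
      refine (hlip (by linarith) h7 ?_).trans ?_
      · nlinarith [show (0 : ℝ) ≤ (nu p k A : ℝ) from Nat.cast_nonneg _]
      · rw [hd]
        linarith
    · refine (hlip (by positivity) h7 ?_).trans ?_
      · rw [hnu]
        rw [hm] at hs1
        linarith
      · have : s + 1 - t * (nu p k A : ℝ) = 1 - 3 * t := by linarith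
        rw [this]
        linarith
  unfold pl
  rw [e1, dist_eq_norm, ← mul_sub, norm_mul, Complex.norm_real, Real.norm_eq_abs,
    abs_of_nonneg hδ]
  have h8 : ‖lin (fun j => (pt (run p k A j).1 +
        pt ((run p k A j).1 + dir ((run p k A j).2 + 1))) / 2) s -
      lin (xv p k A) (t * nu p k A)‖ ≤ 2 := by
    rw [← e2] at h5
    have := norm_sub_le_norm_sub_add_norm_sub (lin (fun j => (pt (run p k A j).1 +
        pt ((run p k A j).1 + dir ((run p k A j).2 + 1))) / 2) s) (lin (xv p k A) (s + 1))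
        (lin (xv p k A) (t * nu p k A))
    linarith
  nlinarith

/-! ### The exploration -/

/-- The first steps depend only on the states of the edges ahead. -/
theorem run_congr {A A' : Finset (Sym2 (ℤ × ℤ))} {j : ℕ}
    (h : ∀ i < j, ahead (run p k A i) ∈ A ↔ ahead (run p k A i) ∈ A') :
    ∀ i ≤ j, run p k A' i = run p k A i := by
  intro i
  induction i with
  | zero => intro _; rfl
  | succ i ih =>
    intro hi
    have h1 := ih (by omega)
    rw [run_succ, run_succ, h1]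
    have h2 : ahead (run p k A i) ∈ wiredOpen p k A' ↔ ahead (run p k A i) ∈ wiredOpen p k A :=
      or_congr_left (h i (by omega)).symm
    by_cases h3 : ahead (run p k A i) ∈ wiredOpen p k A
    · rw [next_open h3, next_open (h2.2 h3)]
    · rw [next_closed h3, next_closed (fun h4 => h3 (h2.1 h4))]

end Vale.Agent.P167.E2
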