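import Vale.Agent.P167.E2.Pol

/-!
# P167, block E2-GEO: the domain pushed outward by `3/8` of the mesh (definitions)
-/

open Set

namespace Vale.Agent.P167.E2

open Vale.Agent.P167.E6

/-- The open `3/8 δ`-neighbourhood, in the sup norm, of the closed domain of mesh `δ`. -/
def Om (δ : ℝ) (S : Finset (ℤ × ℤ)) : Set ℂ :=
  {z | ∃ w ∈ region δ S, |z.re - w.re| < 3 / 8 * δ ∧ |z.im - w.im| < 3 / 8 * δ}

/-- Diagonal directions: `sq r` points from a vertex to the centre of the face `face v r`. -/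
noncomputable def sq : Fin 4 → ℂ :=
  ![1 + Complex.I, -1 + Complex.I, -1 - Complex.I, 1 - Complex.I]

/-- The starting point, on the boundary of `Om δ S`. -/
noncomputable def aM {n : ℕ} (p : ZMod n → ℤ × ℤ) (δ : ℝ) : ℂ :=
  (δ : ℂ) * (pt (p (-1)) + (3 / 8 : ℝ) * sq (ro p (-1) - 1))

/-- The end point, on the boundary of `Om δ S`. -/
noncomputable def bM {n : ℕ} (p : ZMod n → ℤ × ℤ) (k : ℕ) (δ : ℝ) : ℂ :=
  (δ : ℂ) * (pt (p (k : ZMod n)) + (3 / 8 : ℝ) * sq (ri p (k : ZMod n)))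

/-- The domain of mesh `1` by enlarged faces. -/
def O1 (S : Set (ℤ × ℤ)) : Set ℂ :=
  {z | ∃ f ∈ S, (f.1 : ℝ) - 3 / 8 < z.re ∧ z.re < f.1 + 11 / 8 ∧
    (f.2 : ℝ) - 3 / 8 < z.im ∧ z.im < f.2 + 11 / 8}

theorem mem_Om {δ : ℝ} (hδ : 0 < δ) {S : Finset (ℤ × ℤ)} {z : ℂ} :
    (δ : ℂ) * z ∈ Om δ S ↔ z ∈ O1 (S : Set (ℤ × ℤ)) := by
  constructor
  · rintro ⟨w, ⟨f, hf, h1, h2, h3, h4⟩, h5, h6⟩
    rw [Complex.re_ofReal_mul, abs_lt] at h5
    rw [Complex.im_ofReal_mul, abs_lt] at h6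
    refine ⟨f, hf, ?_, ?_, ?_, ?_⟩
    · have : δ * (f.1 - 3 / 8) < δ * z.re := by nlinarith
      exact lt_of_mul_lt_mul_left this hδ.le
    · have : δ * z.re < δ * (f.1 + 11 / 8) := by nlinarith
      exact lt_of_mul_lt_mul_left this hδ.le
    · have : δ * (f.2 - 3 / 8) < δ * z.im := by nlinarith
      exact lt_of_mul_lt_mul_left this hδ.le
    · have : δ * z.im < δ * (f.2 + 11 / 8) := by nlinarith
      exact lt_of_mul_lt_mul_left this hδ.le
  · rintro ⟨f, hf, h1, h2, h3, h4⟩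
    have clamp : ∀ a x : ℝ, a - 3 / 8 < x → x < a + 11 / 8 →
        ∃ y, a ≤ y ∧ y ≤ a + 1 ∧ |x - y| < 3 / 8 := by
      intro a x h1 h2
      rcases lt_or_ge x a with h | h
      · exact ⟨a, le_rfl, by linarith, abs_lt.2 ⟨by linarith, by linarith⟩⟩
      rcases lt_or_ge (a + 1) x with h' | h'
      · exact ⟨a + 1, by linarith, le_rfl, abs_lt.2 ⟨by linarith, by linarith⟩⟩
      · exact ⟨x, h, h', by rw [sub_self, abs_zero]; norm_num⟩
    obtain ⟨x, a1, a2, a3⟩ := clamp _ _ h1 h2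
    obtain ⟨y, b1, b2, b3⟩ := clamp _ _ h3 h4
    refine ⟨⟨δ * x, δ * y⟩, ⟨f, hf, ?_, ?_, ?_, ?_⟩, ?_, ?_⟩
    · exact mul_le_mul_of_nonneg_left a1 hδ.le
    · exact mul_le_mul_of_nonneg_left a2 hδ.le
    · exact mul_le_mul_of_nonneg_left b1 hδ.le
    · exact mul_le_mul_of_nonneg_left b2 hδ.le
    · rw [Complex.re_ofReal_mul]
      show |δ * z.re - δ * x| < _
      rw [← mul_sub, abs_mul, abs_of_pos hδ]
      nlinarith
    · rw [Complex.im_ofReal_mul]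
      show |δ * z.im - δ * y| < _
      rw [← mul_sub, abs_mul, abs_of_pos hδ]
      nlinarith

/-- The domain of mesh `δ` is the image of the domain of mesh `1`. -/
theorem Om_eq {δ : ℝ} (hδ : 0 < δ) (S : Finset (ℤ × ℤ)) :
    Om δ S = (fun z : ℂ => (δ : ℂ) * z) '' O1 (S : Set (ℤ × ℤ)) := by
  have h0 : (δ : ℂ) ≠ 0 := by exact_mod_cast hδ.ne'
  ext z
  constructor
  · intro h
    have e : (δ : ℂ) * (z / δ) = z := mul_div_cancel₀ _ h0
    exact ⟨z / δ, (mem_Om hδ).1 (by rw [e]; exact h), e⟩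
  · rintro ⟨w, hw, rfl⟩
    exact (mem_Om hδ).2 hw

end Vale.Agent.P167.E2
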