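import Vale.Agent.P167.E6.Defs

/-!
# P167, block E2: polygonal curves
-/

namespace Vale.Agent.P167.E2

open Vale.Agent.P167.E6 Set Filter Topology

/-- The polygonal curve with the value `x j` at the time `j`. -/
noncomputable def lin (x : ℕ → ℂ) (s : ℝ) : ℂ :=
  x ⌊s⌋₊ + ((s - ⌊s⌋₊ : ℝ) : ℂ) * (x (⌊s⌋₊ + 1) - x ⌊s⌋₊)

theorem poly_eq (x : ℕ → ℂ) (m : ℕ) (t : ℝ) : poly x m t = lin x (t * m) := rfl

theorem lin_eq (x : ℕ → ℂ) (m : ℕ) {s : ℝ} (h0 : (m : ℝ) ≤ s ∨ m = 0) (h1 : s ≤ m + 1) :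
    lin x s = x m + ((s - m : ℝ) : ℂ) * (x (m + 1) - x m) := by
  rcases h1.lt_or_eq with h1 | h1
  · have : ⌊s⌋₊ = m := by
      rcases h0 with h0 | h0
      · exact Nat.floor_eq_on_Ico m s ⟨h0, h1⟩
      · subst h0
        rw [Nat.floor_eq_zero]
        simpa using h1
    unfold lin
    rw [this]
  · have : ⌊s⌋₊ = m + 1 := by
      rw [h1]
      exact_mod_cast Nat.floor_natCast (R := ℝ) (m + 1)
    unfold lin
    rw [this, h1]
    push_cast
    ring

theorem lin_nat (x : ℕ → ℂ) (m : ℕ) : lin x m = x m := by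
  rw [lin_eq x m (Or.inl le_rfl) (by linarith)]
  simp

theorem lin_zero (x : ℕ → ℂ) : lin x 0 = x 0 := by
  have := lin_nat x 0
  simpa using this

theorem continuousOn_piece (x : ℕ → ℂ) (m : ℕ) {K : Set ℝ}
    (hK : ∀ s ∈ K, ((m : ℝ) ≤ s ∨ m = 0) ∧ s ≤ m + 1) : ContinuousOn (lin x) K := by
  refine ContinuousOn.congr (f := fun s : ℝ => x m + ((s - m : ℝ) : ℂ) * (x (m + 1) - x m))
    (by fun_prop) fun s hs => lin_eq x m (hK s hs).1 (hK s hs).2

theorem continuousOn_Iic (x : ℕ → ℂ) (m : ℕ) : ContinuousOn (lin x) (Iic ((m : ℝ) + 1)) := by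
  induction m with
  | zero => exact continuousOn_piece x 0 fun s hs => ⟨Or.inr rfl, hs⟩
  | succ m ih =>
    have h1 : ContinuousOn (lin x) (Icc ((m : ℝ) + 1) (((m + 1 : ℕ) : ℝ) + 1)) :=
      continuousOn_piece x (m + 1) fun s hs => ⟨Or.inl (by push_cast; exact hs.1), hs.2⟩
    have h2 : Iic (((m + 1 : ℕ) : ℝ) + 1) =
        Iic ((m : ℝ) + 1) ∪ Icc ((m : ℝ) + 1) (((m + 1 : ℕ) : ℝ) + 1) := by
      rw [Iic_union_Icc_eq_Iic (by push_cast; linarith)]
    rw [h2]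
    exact ih.union_of_isClosed h1 isClosed_Iic isClosed_Icc

theorem continuous_lin (x : ℕ → ℂ) : Continuous (lin x) := by
  rw [continuous_iff_continuousAt]
  intro s
  obtain ⟨m, hm⟩ := exists_nat_gt s
  exact (continuousOn_Iic x m).continuousAt (Iic_mem_nhds (by linarith))

/-- Two polygonal curves with close vertices are close. -/
theorem dist_lin_le {x y : ℕ → ℂ} {M : ℕ} {e : ℝ} (h : ∀ j ≤ M, ‖x j - y j‖ ≤ e) {s : ℝ}
    (h0 : 0 ≤ s) (h1 : s ≤ M) : ‖lin x s - lin y s‖ ≤ e := by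
  have hf : (⌊s⌋₊ : ℝ) ≤ s := Nat.floor_le h0
  have hf' : s < ⌊s⌋₊ + 1 := Nat.lt_floor_add_one s
  have hle : ⌊s⌋₊ ≤ M := by exact_mod_cast hf.trans h1
  rcases hle.lt_or_eq with hlt | heq
  · have e1 : lin x s - lin y s = ((1 - (s - ⌊s⌋₊) : ℝ) : ℂ) * (x ⌊s⌋₊ - y ⌊s⌋₊) +
        ((s - ⌊s⌋₊ : ℝ) : ℂ) * (x (⌊s⌋₊ + 1) - y (⌊s⌋₊ + 1)) := by
      unfold lin
      push_cast
      ring
    rw [e1]
    refine (norm_add_le _ _).trans ?_
    rw [norm_mul, norm_mul, Complex.norm_real, Complex.norm_real, Real.norm_eq_abs,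
      Real.norm_eq_abs, abs_of_nonneg (by linarith), abs_of_nonneg (by linarith)]
    have h2 := h _ hle
    have h3 := h (⌊s⌋₊ + 1) hlt
    nlinarith
  · have hs : s = M := le_antisymm h1 (by rw [← heq]; exact hf)
    rw [hs, lin_nat, lin_nat]
    exact h M le_rfl

/-- A polygonal curve with short edges is Lipschitz. -/
theorem lin_lip_aux {x : ℕ → ℂ} {M : ℕ} {d : ℝ} (h : ∀ j < M, ‖x (j + 1) - x j‖ ≤ d) (m : ℕ)
    {s : ℝ} (h0 : (m : ℝ) ≤ s) (h1 : s ≤ m + 1) (hs : s ≤ M) : ‖lin x s - x m‖ ≤ d * (s - m) := by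
  rw [lin_eq x m (Or.inl h0) h1]
  rcases h0.lt_or_eq with h0 | h0
  · have h2 : m < M := by exact_mod_cast h0.trans_le hs
    rw [add_sub_cancel_left, norm_mul, Complex.norm_real, Real.norm_eq_abs,
      abs_of_nonneg (by linarith)]
    have := h m h2
    nlinarith
  · rw [← h0]
    simp

theorem lin_lip {x : ℕ → ℂ} {M : ℕ} {d : ℝ} (h : ∀ j < M, ‖x (j + 1) - x j‖ ≤ d)
    {s t : ℝ} (h0 : 0 ≤ s) (hst : s ≤ t) (ht : t ≤ M) : ‖lin x t - lin x s‖ ≤ d * (t - s) := by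
  have key : ∀ (k m : ℕ) (s t : ℝ), (m : ℝ) ≤ s → s ≤ m + 1 → s ≤ t → t ≤ m + k + 1 → t ≤ M →
      ‖lin x t - lin x s‖ ≤ d * (t - s) := by
    intro k
    induction k with
    | zero =>
      intro m s t h1 h2 h3 h4 h5
      simp only [Nat.cast_zero, add_zero] at h4
      rw [lin_eq x m (Or.inl h1) h2, lin_eq x m (Or.inl (h1.trans h3)) h4]
      rcases (h1.trans h3).lt_or_eq with h6 | h6
      · have h7 : m < M := by exact_mod_cast h6.trans_le h5
        have e1 : x m + ((t - m : ℝ) : ℂ) * (x (m + 1) - x m) -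
            (x m + ((s - m : ℝ) : ℂ) * (x (m + 1) - x m)) =
            ((t - s : ℝ) : ℂ) * (x (m + 1) - x m) := by
          push_cast
          ring
        rw [e1, norm_mul, Complex.norm_real, Real.norm_eq_abs, abs_of_nonneg (by linarith)]
        have := h m h7
        nlinarith
      · have h7 : s = m := le_antisymm (by rw [h6]; exact h3) h1
        rw [← h6, h7]
        simp
    | succ k ih =>
      intro m s t h1 h2 h3 h4 h5
      rcases le_total t (m + 1) with h6 | h6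
      · exact ih m s t h1 h2 h3 (by have : (0 : ℝ) ≤ k := Nat.cast_nonneg k; linarith) h5
      · have h7 := ih (m + 1) ((m + 1 : ℕ) : ℝ) t le_rfl (by push_cast; linarith)
          (by push_cast; exact h6) (by push_cast at h4 ⊢; linarith) h5
        have h8 := ih m s ((m + 1 : ℕ) : ℝ) h1 h2 (by push_cast; exact h2)
          (by push_cast; have : (0 : ℝ) ≤ k := Nat.cast_nonneg k; linarith)
          (by push_cast; linarith)
        have e1 : lin x t - lin x s =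
            (lin x t - lin x ((m + 1 : ℕ) : ℝ)) + (lin x ((m + 1 : ℕ) : ℝ) - lin x s) := by ring
        rw [e1]
        refine (norm_add_le _ _).trans ?_
        linarith
  obtain ⟨k, hk⟩ := exists_nat_gt t
  exact key k ⌊s⌋₊ s t (Nat.floor_le h0) (Nat.lt_floor_add_one s).le hst
    (by have : (0 : ℝ) ≤ (⌊s⌋₊ : ℝ) := Nat.cast_nonneg _; linarith) ht

end Vale.Agent.P167.E2
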