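import Vale.Agent.P167.E2.Path
import Vale.Agent.P167.E2.Lin

/-!
# P167, block E2: existence and uniqueness of the interface; left and right chains
-/

namespace Vale.Agent.P167.E2

open Vale.Agent.P167.E6 Set Filter Topology

variable {n : ℕ} {p : ZMod n → ℤ × ℤ} {S : Finset (ℤ × ℤ)} {k : ℕ} {A : Finset (Sym2 (ℤ × ℤ))}

theorem start_iff (hp : IsPolygon p) {c : Medial} :
    (c.1 = p (-1) ∧ p (-1) + dir (c.2 + 1) = p 0) ↔ c = cs p := by
  have h0 : (-1 : ZMod n) + 1 = 0 := neg_add_cancel 1
  constructor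
  · rintro ⟨h1, h2⟩
    refine Prod.ext h1 ?_
    have h3 : c.2 + 1 = ro p (-1) := ro_unique hp (by rw [h0, h2])
    simp only [cs, ← h3, fin4_2]
  · rintro rfl
    refine ⟨rfl, ?_⟩
    simp only [cs, fin4_1]
    rw [← ro_spec hp, h0]

theorem exit_iff (hp : IsPolygon p) {c : Medial} :
    (c.1 = p k ∧ p k + dir c.2 = p ((k : ZMod n) - 1)) ↔ c = ce p k := by
  constructor
  · rintro ⟨h1, h2⟩
    exact Prod.ext h1 (ri_unique hp h2.symm)
  · rintro rfl
    refine ⟨rfl, ?_⟩
    simp only [ce]
    rw [← ri_spec hp]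

/-- The interface. -/
noncomputable def crv (p : ZMod n → ℤ × ℤ) (k : ℕ) (δ : ℝ) (A : Finset (Sym2 (ℤ × ℤ))) :
    C(unitInterval, ℂ) where
  toFun t := poly (fun j => mid δ (run p k A j)) (len p k A - 1) t
  continuous_toFun := by
    have h : (fun t : unitInterval => poly (fun j => mid δ (run p k A j)) (len p k A - 1) t) =
        fun t : unitInterval => lin (fun j => mid δ (run p k A j)) (t * ((len p k A - 1 : ℕ) : ℝ)) :=
      rfl
    rw [h]
    exact (continuous_lin _).comp (by fun_prop)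

theorem isInterface_crv (hp : IsPolygon p) (hS : Encloses p S) (h0 : 0 < k) (hk : k < n)
    (hA : A ⊆ edges S) (δ : ℝ) : IsInterface p k δ A (crv p k δ A) := by
  have h2 := two_le_len hp hS hk hA h0
  have hl : len p k A - 1 + 1 = len p k A := by omega
  obtain ⟨s1, s2⟩ := (start_iff hp).2 (rfl : cs p = cs p)
  refine ⟨len p k A - 1, run p k A, by omega, s1, s2, run_succ, ?_, ?_⟩
  · intro j hj hx
    rw [hl]
    exact len_min hp hS hk hA hj ((exit_iff hp).1 hx)
  · rw [hl, run_len hp hS hk hA]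
    obtain ⟨e1, e2⟩ := (exit_iff hp (k := k)).2 (rfl : ce p k = ce p k)
    exact ⟨e1, e2, fun t => rfl⟩

theorem isInterface_unique (hp : IsPolygon p) (hS : Encloses p S) (hk : k < n)
    (hA : A ⊆ edges S) {δ : ℝ} {γ : C(unitInterval, ℂ)} (h : IsInterface p k δ A γ) :
    γ = crv p k δ A := by
  obtain ⟨m, c, -, h1, h2, h3, h4, h5, h6, h7⟩ := h
  have hc : c = run p k A := by
    funext j
    induction j with
    | zero => exact (start_iff hp).1 ⟨h1, h2⟩
    | succ j ih => rw [h3, ih, run_succ]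
  subst hc
  have hm : m + 1 = len p k A := by
    refine le_antisymm ?_ (len_min hp hS hk hA (Nat.succ_pos m) ((exit_iff hp).1 ⟨h5, h6⟩))
    exact h4 _ (len_pos hp hS hk hA) ((exit_iff hp).2 (run_len hp hS hk hA))
  ext t
  rw [h7]
  have : m = len p k A - 1 := by omega
  rw [this]
  rfl

/-! ### The left chain -/

/-- Open connection. -/
theorem left_reach (j : ℕ) : (SimpleGraph.fromEdgeSet (wiredOpen p k A)).Reachable (p (-1))
    (run p k A j).1 := by
  induction j with
  | zero => exact SimpleGraph.Reachable.refl _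
  | succ j ih =>
    rw [run_succ]
    by_cases h : ahead (run p k A j) ∈ wiredOpen p k A
    · rw [next_open h]
      refine ih.trans (SimpleGraph.Adj.reachable ?_)
      rw [SimpleGraph.fromEdgeSet_adj]
      exact ⟨h, (add_dir_ne _ _).symm⟩
    · rw [next_closed h]
      exact ih

theorem left_step (j : ℕ) : (run p k A (j + 1)).1 = (run p k A j).1 ∨
    (s((run p k A j).1, (run p k A (j + 1)).1) = ahead (run p k A j) ∧
      ahead (run p k A j) ∈ wiredOpen p k A) := by
  rw [run_succ]
  by_cases h : ahead (run p k A j) ∈ wiredOpen p k A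
  · right
    rw [next_open h]
    exact ⟨rfl, h⟩
  · left
    rw [next_closed h]

/-- Two faces are the two sides of the edge `e`. -/
def DualEdge (f g : ℤ × ℤ) (e : Sym2 (ℤ × ℤ)) : Prop :=
  ∃ (v : ℤ × ℤ) (r : Fin 4), e = s(v, v + dir r) ∧ f = face v (r - 1) ∧ g = face v r

theorem right_step (j : ℕ) : fc (run p k A (j + 1)) = fc (run p k A j) ∨
    (DualEdge (fc (run p k A j)) (fc (run p k A (j + 1))) (ahead (run p k A j)) ∧
      ahead (run p k A j) ∉ wiredOpen p k A) := by
  rw [run_succ]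
  by_cases h : ahead (run p k A j) ∈ wiredOpen p k A
  · left
    exact fc_next_open h
  · right
    refine ⟨⟨(run p k A j).1, (run p k A j).2 + 1, rfl, ?_, ?_⟩, h⟩
    · rw [fin4_2]
      rfl
    · rw [next_closed h]
      rfl

end Vale.Agent.P167.E2
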