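import Vale.Agent.P167.E2.Grid
import Vale.Agent.P167.E2.Intf
import Vale.Agent.P167.E2.OmDef

/-!
# P167, block E2: the corner curve
-/

namespace Vale.Agent.P167.E2

open Vale.Agent.P167.E6 Set Filter Topology

/-! ### Corners -/

theorem sq0 : sq 0 = ⟨1, 1⟩ := by apply Complex.ext <;> simp [sq]
theorem sq1 : sq 1 = ⟨-1, 1⟩ := by apply Complex.ext <;> simp [sq]
theorem sq2 : sq 2 = ⟨-1, -1⟩ := by apply Complex.ext <;> simp [sq]
theorem sq3 : sq 3 = ⟨1, -1⟩ := by apply Complex.ext <;> simp [sq]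

/-- The point on the ray from the vertex to the centre of the face of the medial edge. -/
noncomputable def cpt (θ : ℝ) (c : Medial) : ℂ := pt c.1 + (θ : ℂ) * sq c.2

theorem cpt_re (θ : ℝ) (c : Medial) : (cpt θ c).re = c.1.1 + θ * (sq c.2).re := by
  simp [cpt, pt_re]

theorem cpt_im (θ : ℝ) (c : Medial) : (cpt θ c).im = c.1.2 + θ * (sq c.2).im := by
  simp [cpt, pt_im]

theorem sq_re (r : Fin 4) : (sq r).re = 1 ∨ (sq r).re = -1 := by
  revert r
  refine forall4 ?_ ?_ ?_ ?_
  · rw [sq0]; exact Or.inl rfl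
  · rw [sq1]; exact Or.inr rfl
  · rw [sq2]; exact Or.inr rfl
  · rw [sq3]; exact Or.inl rfl

theorem sq_im (r : Fin 4) : (sq r).im = 1 ∨ (sq r).im = -1 := by
  revert r
  refine forall4 ?_ ?_ ?_ ?_
  · rw [sq0]; exact Or.inl rfl
  · rw [sq1]; exact Or.inl rfl
  · rw [sq2]; exact Or.inr rfl
  · rw [sq3]; exact Or.inr rfl

theorem sq_inj {r s : Fin 4} (h1 : (sq r).re = (sq s).re) (h2 : (sq r).im = (sq s).im) :
    r = s := by
  revert h1 h2
  revert r s
  have key : ∀ r s : Fin 4, (sq r).re = (sq s).re → (sq r).im = (sq s).im → r = s := by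
    refine forall4 ?_ ?_ ?_ ?_ <;> refine forall4 ?_ ?_ ?_ ?_ <;> intro h1 h2 <;>
      simp only [sq0, sq1, sq2, sq3] at h1 h2 <;> first | rfl | (exfalso; linarith)
  exact fun {r s} => key r s

/-- The position of the medial edge in the lattice of mesh `1/2`. -/
def hl (c : Medial) : ℤ × ℤ := c.1 + fc c

theorem cpt_hl (c : Medial) : cpt (1 / 4) c = (1 / 2 : ℂ) * pt (hl c) + (1 / 4 : ℂ) * ⟨1, 1⟩ := by
  obtain ⟨v, r⟩ := c
  revert r
  refine forall4 ?_ ?_ ?_ ?_ <;> apply Complex.ext <;>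
    simp only [cpt, hl, fc, face0, face1, face2, face3, sq0, sq1, sq2, sq3, pt, Prod.fst_add,
      Prod.snd_add, Complex.add_re, Complex.add_im, Complex.mul_re, Complex.mul_im,
      Complex.ofReal_re, Complex.ofReal_im, Complex.div_ofNat_re, Complex.div_ofNat_im,
      Complex.one_re, Complex.one_im] <;> push_cast <;> ring

theorem coord_eq {m m' : ℤ} {θ θ' s s' : ℝ} (h0 : 1 / 4 ≤ θ) (h1 : θ ≤ 3 / 8) (h0' : 1 / 4 ≤ θ')
    (h1' : θ' ≤ 3 / 8) (hs : s = 1 ∨ s = -1) (hs' : s' = 1 ∨ s' = -1)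
    (h : (m : ℝ) + θ * s = m' + θ' * s') : m = m' ∧ θ = θ' ∧ s = s' := by
  rcases hs with rfl | rfl <;> rcases hs' with rfl | rfl
  · have k1 : m - m' = 0 := int_zero (by push_cast; linarith) (by push_cast; linarith)
    have k3 : (m : ℝ) = m' := by exact_mod_cast sub_eq_zero.1 k1
    exact ⟨by omega, by linarith, rfl⟩
  · exact (int_not (m := m' - m) (by push_cast; linarith) (by push_cast; linarith)).elim
  · exact (int_not (m := m - m') (by push_cast; linarith) (by push_cast; linarith)).elim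
  · have k1 : m - m' = 0 := int_zero (by push_cast; linarith) (by push_cast; linarith)
    have k3 : (m : ℝ) = m' := by exact_mod_cast sub_eq_zero.1 k1
    exact ⟨by omega, by linarith, rfl⟩

theorem cpt_inj {θ θ' : ℝ} {c c' : Medial} (h0 : 1 / 4 ≤ θ) (h1 : θ ≤ 3 / 8) (h0' : 1 / 4 ≤ θ')
    (h1' : θ' ≤ 3 / 8) (h : cpt θ c = cpt θ' c') : c = c' ∧ θ = θ' := by
  have e1 := congrArg Complex.re h
  have e2 := congrArg Complex.im h
  rw [cpt_re, cpt_re] at e1
  rw [cpt_im, cpt_im] at e2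
  obtain ⟨a1, a2, a3⟩ := coord_eq h0 h1 h0' h1' (sq_re _) (sq_re _) e1
  obtain ⟨b1, b2, b3⟩ := coord_eq h0 h1 h0' h1' (sq_im _) (sq_im _) e2
  exact ⟨Prod.ext (Prod.ext a1 b1) (sq_inj a3 b3), a2⟩

theorem hl_inj {c c' : Medial} (h : hl c = hl c') : c = c' := by
  have : cpt (1 / 4) c = cpt (1 / 4) c' := by rw [cpt_hl, cpt_hl, h]
  exact (cpt_inj (by norm_num) (by norm_num) (by norm_num) (by norm_num) this).1

theorem hl_next (ω : Set (Sym2 (ℤ × ℤ))) (c : Medial) : ∃ r, hl (next ω c) = hl c + dir r := by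
  by_cases h : ahead c ∈ ω
  · refine ⟨c.2 + 1, ?_⟩
    have h1 := fc_next_open h
    unfold hl
    rw [h1, next_open h]
    simp only
    rw [add_right_comm]
  · refine ⟨c.2 + 2, ?_⟩
    rw [next_closed h]
    obtain ⟨v, r⟩ := c
    simp only [hl, fc]
    rw [add_assoc]
    congr 1
    clear h
    revert r
    refine forall4 ?_ ?_ ?_ ?_ <;> apply Prod.ext <;>
      simp only [face0, face1, face2, face3, f4_01, f4_11, f4_21, f4_31, f4_02, f4_12, f4_22, f4_32,
        dir0, dir1, dir2, dir3, Prod.fst_add, Prod.snd_add] <;> ring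

/-! ### The curve -/

variable {n : ℕ} {p : ZMod n → ℤ × ℤ} {S : Finset (ℤ × ℤ)} {k : ℕ} {A : Finset (Sym2 (ℤ × ℤ))}

/-- The vertices of the corner curve (mesh `1`). -/
noncomputable def xv (p : ZMod n → ℤ × ℤ) (k : ℕ) (A : Finset (Sym2 (ℤ × ℤ))) (j : ℕ) : ℂ :=
  if j = 0 then cpt (3 / 8) (cs p)
  else if j ≤ len p k A + 1 then cpt (1 / 4) (run p k A (j - 1)) else cpt (3 / 8) (ce p k)

/-- The number of steps of the corner curve. -/
noncomputable def nu (p : ZMod n → ℤ × ℤ) (k : ℕ) (A : Finset (Sym2 (ℤ × ℤ))) : ℕ :=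
  len p k A + 2

/-- The corner curve. -/
noncomputable def pl (p : ZMod n → ℤ × ℤ) (k : ℕ) (δ : ℝ) (A : Finset (Sym2 (ℤ × ℤ))) (t : ℝ) :
    ℂ := (δ : ℂ) * lin (xv p k A) t

theorem aM_eq (p : ZMod n → ℤ × ℤ) (δ : ℝ) : aM p δ = (δ : ℂ) * cpt (3 / 8) (cs p) := rfl

theorem bM_eq (p : ZMod n → ℤ × ℤ) (k : ℕ) (δ : ℝ) :
    bM p k δ = (δ : ℂ) * cpt (3 / 8) (ce p k) := rfl

theorem xv_zero : xv p k A 0 = cpt (3 / 8) (cs p) := rfl

theorem xv_mid {j : ℕ} (h : j ≤ len p k A) : xv p k A (j + 1) = cpt (1 / 4) (run p k A j) := by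
  unfold xv
  rw [if_neg (Nat.succ_ne_zero j), if_pos (by omega), Nat.add_sub_cancel]

theorem xv_last : xv p k A (len p k A + 2) = cpt (3 / 8) (ce p k) := by
  unfold xv
  rw [if_neg (by omega), if_neg (by omega)]

theorem pl_zero (δ : ℝ) : pl p k δ A 0 = aM p δ := by
  rw [aM_eq]
  unfold pl
  rw [lin_zero, xv_zero]

theorem pl_nu (δ : ℝ) : pl p k δ A (nu p k A) = bM p k δ := by
  rw [bM_eq]
  unfold pl nu
  rw [lin_nat, xv_last]

theorem continuous_pl (δ : ℝ) : Continuous (pl p k δ A) :=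
  continuous_const.mul (continuous_lin _)

/-- The first piece. -/
theorem lin_first {t : ℝ} (h1 : t ≤ 1) : lin (xv p k A) t = cpt (3 / 8 - t / 8) (cs p) := by
  rw [lin_eq _ 0 (Or.inr rfl) (by push_cast; linarith), xv_zero, xv_mid (Nat.zero_le _), run_zero]
  unfold cpt
  push_cast
  ring

/-- The last piece. -/
theorem lin_last (hp : IsPolygon p) (hS : Encloses p S) (hk : k < n) (hA : A ⊆ edges S) {t : ℝ}
    (h0 : (len p k A : ℝ) + 1 ≤ t) (h1 : t ≤ len p k A + 2) :
    lin (xv p k A) t = cpt (1 / 4 + (t - (len p k A + 1)) / 8) (ce p k) := by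
  rw [lin_eq _ (len p k A + 1) (Or.inl (by push_cast; exact h0)) (by push_cast; linarith),
    xv_mid le_rfl, xv_last, run_len hp hS hk hA]
  unfold cpt
  push_cast
  ring

/-- The middle pieces. -/
theorem lin_mid {t : ℝ} (h0 : 1 ≤ t) (h1 : t ≤ len p k A + 1) :
    lin (xv p k A) t =
      (1 / 2 : ℂ) * lin (fun j => pt (hl (run p k A j))) (t - 1) + (1 / 4 : ℂ) * ⟨1, 1⟩ := by
  have h2 : (0 : ℝ) ≤ t - 1 := by linarith
  have h3 := Nat.floor_le h2
  have h4 := Nat.lt_floor_add_one (t - 1)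
  set m := ⌊t - 1⌋₊ with hm
  have h5 : m ≤ len p k A := by
    have : (m : ℝ) ≤ len p k A := by linarith
    exact_mod_cast this
  rw [lin_eq _ (m + 1) (Or.inl (by push_cast; linarith)) (by push_cast; linarith),
    lin_eq _ m (Or.inl h3) h4.le, xv_mid h5, cpt_hl]
  rcases h5.lt_or_eq with h6 | h6
  · rw [xv_mid (by omega), cpt_hl]
    push_cast
    ring
  · have h7 : t - 1 = m := le_antisymm (by rw [h6]; linarith) h3
    have h8 : t - ((m + 1 : ℕ) : ℝ) = 0 := by push_cast; linarith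
    have h9 : t - 1 - (m : ℝ) = 0 := by linarith
    rw [h8, h9]
    push_cast
    ring

/-- The points of the middle part have a coordinate in `1/4 + ℤ/2`. -/
theorem mid_coord {a : ℕ → ℤ × ℤ} {M : ℕ} (hs : ∀ j < M, ∃ r, a (j + 1) = a j + dir r)
    {s : ℝ} (hs' : s ∈ Icc (0 : ℝ) M) :
    (∃ m : ℤ, (lin (fun j => pt (a j)) s).re = m) ∨ ∃ m : ℤ, (lin (fun j => pt (a j)) s).im = m := by
  rcases lin_grid_form hs hs' with ⟨j, -, -, h⟩ | ⟨j, -, r, -, -, -, h⟩
  · exact Or.inl ⟨(a j).1, by rw [h, pt_re]⟩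
  · rw [h, epn_re, epn_im]
    clear h
    revert r
    refine forall4 ?_ ?_ ?_ ?_
    · exact Or.inr ⟨(a j).2, by rw [pd0]; simp⟩
    · exact Or.inl ⟨(a j).1, by rw [pd1]; simp⟩
    · exact Or.inr ⟨(a j).2, by rw [pd2]; simp⟩
    · exact Or.inl ⟨(a j).1, by rw [pd3]; simp⟩

theorem no_coord {m m' : ℤ} {θ s : ℝ} (h0 : 1 / 4 < θ) (h1 : θ ≤ 3 / 8) (hs : s = 1 ∨ s = -1)
    (h : (m : ℝ) + θ * s = 1 / 2 * m' + 1 / 4) : False := by
  rcases hs with rfl | rfl
  · exact int_not (m := m' - 2 * m) (by push_cast; linarith) (by push_cast; linarith)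
  · exact int_not (m := 2 * m - m' - 1) (by push_cast; linarith) (by push_cast; linarith)

section

variable (hp : IsPolygon p) (hS : Encloses p S) (hk : k + 1 < n) (hA : A ⊆ edges S)
include hp hS hk hA

omit hS hA in
theorem cs_ne_ce : cs p ≠ ce p k := by
  intro h
  have h1 := hp.2.1 (congrArg Prod.fst h : p (-1) = p (k : ZMod n))
  have h2 : ((n - 1 : ℕ) : ZMod n) = -1 := by
    rw [Nat.cast_sub (by omega)]
    simp
  rw [← h2] at h1
  have := cast_inj (by omega) (by omega) (by omega) h1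
  omega

theorem run_inj' : ∀ i ≤ len p k A, ∀ j ≤ len p k A, run p k A i = run p k A j → i = j := by
  have hk' : k < n := by omega
  have key : ∀ i < len p k A, run p k A i ≠ run p k A (len p k A) := by
    intro i hi h
    rw [run_len hp hS hk' hA] at h
    rcases Nat.eq_zero_or_pos i with h0 | h0
    · rw [h0, run_zero] at h
      exact cs_ne_ce hp hk h
    · exact run_ne hp hS hk' hA h0 hi h
  intro i hi j hj h
  rcases hi.lt_or_eq with hi | hi <;> rcases hj.lt_or_eq with hj | hj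
  · exact run_inj hp hS hk' hA hi hj h
  · rw [hj] at h
    exact absurd h (key i hi)
  · rw [hi] at h
    exact absurd h.symm (key j hj)
  · omega

omit hp hS hk hA in
theorem hl_step (j : ℕ) : ∃ r, hl (run p k A (j + 1)) = hl (run p k A j) + dir r := by
  rw [run_succ]
  exact hl_next _ _

omit hp hS hk hA in
theorem first_ne_mid {t : ℝ} {c : Medial} {θ : ℝ} (h0 : 1 / 4 < θ) (h1 : θ ≤ 3 / 8)
    (ht : 1 ≤ t) (ht' : t ≤ len p k A + 1) (h : cpt θ c = lin (xv p k A) t) : False := by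
  rw [lin_mid ht ht'] at h
  have h2 := mid_coord (a := fun j => hl (run p k A j)) (M := len p k A)
    (fun j _ => hl_step j) (s := t - 1) ⟨by linarith, by linarith⟩
  have e1 := congrArg Complex.re h
  have e2 := congrArg Complex.im h
  rw [cpt_re] at e1
  rw [cpt_im] at e2
  simp only [Complex.add_re, Complex.add_im, Complex.mul_re, Complex.mul_im, Complex.div_ofNat_re,
    Complex.div_ofNat_im, Complex.one_re, Complex.one_im, zero_div, zero_mul, sub_zero, mul_one,
    add_zero] at e1 e2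
  rcases h2 with ⟨m, hm⟩ | ⟨m, hm⟩
  · rw [hm] at e1
    exact no_coord h0 h1 (sq_re _) e1
  · rw [hm] at e2
    exact no_coord h0 h1 (sq_im _) e2

theorem lin_injOn : InjOn (lin (xv p k A)) (Icc 0 (nu p k A : ℝ)) := by
  have hk' : k < n := by omega
  have hmid : InjOn (lin fun j => pt (hl (run p k A j))) (Icc 0 (len p k A : ℝ)) :=
    lin_grid_injOn (a := fun j => hl (run p k A j)) (fun j _ => hl_step j)
      fun i hi j hj h => run_inj' hp hS hk hA i hi j hj (hl_inj h)
  have key : ∀ s ∈ Icc (0 : ℝ) (nu p k A), ∀ t ∈ Icc (0 : ℝ) (nu p k A), s ≤ t →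
      lin (xv p k A) s = lin (xv p k A) t → s = t := by
    intro s hs t ht hst h
    have hnu : (nu p k A : ℝ) = len p k A + 2 := by unfold nu; push_cast; ring
    rw [hnu] at hs ht
    have hl0 : (0 : ℝ) ≤ len p k A := Nat.cast_nonneg _
    rcases lt_or_ge s 1 with h1 | h1
    · rw [lin_first h1.le] at h
      have b1 : 1 / 4 < 3 / 8 - s / 8 := by linarith
      have b2 : 3 / 8 - s / 8 ≤ 3 / 8 := by linarith [hs.1]
      rcases le_or_gt t 1 with h2 | h2
      · rw [lin_first h2] at h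
        have := (cpt_inj b1.le b2 (by linarith) (by linarith [ht.1]) h).2
        linarith
      · rcases le_or_gt t (len p k A + 1) with h3 | h3
        · exact (first_ne_mid b1 b2 h2.le h3 h).elim
        · rw [lin_last hp hS hk' hA h3.le ht.2] at h
          exact absurd (cpt_inj b1.le b2 (by linarith) (by linarith [ht.2]) h).1
            (cs_ne_ce hp hk)
    · rcases le_or_gt t (len p k A + 1) with h3 | h3
      · rw [lin_mid h1 (hst.trans h3), lin_mid (h1.trans hst) h3] at h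
        have h4 : lin (fun j => pt (hl (run p k A j))) (s - 1) =
            lin (fun j => pt (hl (run p k A j))) (t - 1) := by
          have h5 := add_right_cancel h
          exact mul_left_cancel₀ (by norm_num) h5
        have := hmid ⟨by linarith, by linarith⟩ ⟨by linarith, by linarith⟩ h4
        linarith
      · have b1 : 1 / 4 < 1 / 4 + (t - (len p k A + 1)) / 8 := by linarith
        have b2 : 1 / 4 + (t - (len p k A + 1)) / 8 ≤ 3 / 8 := by linarith [ht.2]
        rw [lin_last hp hS hk' hA h3.le ht.2] at h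
        rcases le_or_gt s (len p k A + 1) with h4 | h4
        · exact (first_ne_mid b1 b2 h1 h4 h.symm).elim
        · rw [lin_last hp hS hk' hA h4.le hs.2] at h
          have := (cpt_inj (by linarith) (by linarith [hs.2]) b1.le b2 h).2
          linarith
  intro s hs t ht h
  rcases le_total s t with hst | hst
  · exact key s hs t ht hst h
  · exact (key t ht s hs hst h.symm).symm

theorem pl_injOn {δ : ℝ} (hδ : 0 < δ) : InjOn (pl p k δ A) (Icc 0 (nu p k A : ℝ)) := by
  intro s hs t ht h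
  refine lin_injOn hp hS hk hA hs ht (mul_left_cancel₀ ?_ h)
  exact_mod_cast hδ.ne'

end

end Vale.Agent.P167.E2
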