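import Vale.Agent.P167.E2.Orb
import Vale.Agent.P167.E2.Lin

/-!
# P167, block E2: nearest-neighbour paths through different lattice points are simple curves
-/

namespace Vale.Agent.P167.E2

open Vale.Agent.P167.E6 Set Filter Topology

theorem pt_re (v : ℤ × ℤ) : (pt v).re = v.1 := rfl
theorem pt_im (v : ℤ × ℤ) : (pt v).im = v.2 := rfl

theorem pt_add (v w : ℤ × ℤ) : pt (v + w) = pt v + pt w := by
  apply Complex.ext <;> simp [pt]

theorem pt_inj {v w : ℤ × ℤ} (h : pt v = pt w) : v = w := by
  have h1 := congrArg Complex.re h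
  have h2 := congrArg Complex.im h
  simp only [pt] at h1 h2
  exact Prod.ext (by exact_mod_cast h1) (by exact_mod_cast h2)

theorem pd0 : pt (dir 0) = ⟨1, 0⟩ := by apply Complex.ext <;> simp [pt, dir0]
theorem pd1 : pt (dir 1) = ⟨0, 1⟩ := by apply Complex.ext <;> simp [pt, dir1]
theorem pd2 : pt (dir 2) = ⟨-1, 0⟩ := by apply Complex.ext <;> simp [pt, dir2]
theorem pd3 : pt (dir 3) = ⟨0, -1⟩ := by apply Complex.ext <;> simp [pt, dir3]

/-- An edge point. -/
noncomputable def epn (a : ℤ × ℤ) (σ : ℝ) (r : Fin 4) : ℂ := pt a + (σ : ℂ) * pt (dir r)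

theorem epn_re (a : ℤ × ℤ) (σ : ℝ) (r : Fin 4) : (epn a σ r).re = a.1 + σ * (pt (dir r)).re := by
  simp [epn, pt_re]

theorem epn_im (a : ℤ × ℤ) (σ : ℝ) (r : Fin 4) : (epn a σ r).im = a.2 + σ * (pt (dir r)).im := by
  simp [epn, pt_im]

theorem int_zero {m : ℤ} (h1 : (m : ℝ) < 1) (h2 : -1 < (m : ℝ)) : m = 0 := by
  have h3 : m < 1 := by exact_mod_cast h1
  have h4 : -1 < m := by exact_mod_cast h2
  omega

theorem int_not {m : ℤ} (h1 : (m : ℝ) < 1) (h2 : 0 < (m : ℝ)) : False := by
  have h3 : m < 1 := by exact_mod_cast h1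
  have h4 : 0 < m := by exact_mod_cast h2
  omega

theorem int_one {m : ℤ} (h1 : (m : ℝ) < 2) (h2 : 0 < (m : ℝ)) : m = 1 := by
  have h3 : m < 2 := by exact_mod_cast h1
  have h4 : 0 < m := by exact_mod_cast h2
  omega

/-- A lattice point is not inside an edge. -/
theorem epn_ne_pt {a b : ℤ × ℤ} {σ : ℝ} (r : Fin 4) (h0 : 0 < σ) (h1 : σ < 1) :
    epn a σ r ≠ pt b := by
  intro h
  have e1 := congrArg Complex.re h
  have e2 := congrArg Complex.im h
  rw [epn_re, pt_re b] at e1
  rw [epn_im, pt_im b] at e2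
  revert r
  refine forall4 ?_ ?_ ?_ ?_
  · intro _ e1 _
    rw [pd0] at e1
    exact int_not (m := b.1 - a.1) (by push_cast; linarith) (by push_cast; linarith)
  · intro _ _ e2
    rw [pd1] at e2
    exact int_not (m := b.2 - a.2) (by push_cast; linarith) (by push_cast; linarith)
  · intro _ e1 _
    rw [pd2] at e1
    exact int_not (m := a.1 - b.1) (by push_cast; linarith) (by push_cast; linarith)
  · intro _ _ e2
    rw [pd3] at e2
    exact int_not (m := a.2 - b.2) (by push_cast; linarith) (by push_cast; linarith)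

/-- Two edges with a common inner point are equal or opposite. -/
theorem epn_eq {a b : ℤ × ℤ} {σ τ : ℝ} (r s : Fin 4) (h0 : 0 < σ) (h1 : σ < 1) (h2 : 0 < τ)
    (h3 : τ < 1) (h : epn a σ r = epn b τ s) :
    (a = b ∧ r = s ∧ σ = τ) ∨ (a = b + dir s ∧ b = a + dir r) := by
  have e1 := congrArg Complex.re h
  have e2 := congrArg Complex.im h
  rw [epn_re, epn_re] at e1
  rw [epn_im, epn_im] at e2
  clear h
  revert r s
  refine forall4 ?_ ?_ ?_ ?_ <;> refine forall4 ?_ ?_ ?_ ?_ <;> intro e1 e2 <;>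
    simp only [pd0, pd1, pd2, pd3, mul_one, mul_zero, add_zero, mul_neg] at e1 e2
  · left
    have k1 : a.1 - b.1 = 0 := int_zero (by push_cast; linarith) (by push_cast; linarith)
    have k2 : a.2 - b.2 = 0 := by exact_mod_cast sub_eq_zero.2 e2
    have k3 : (a.1 : ℝ) = b.1 := by exact_mod_cast sub_eq_zero.1 k1
    exact ⟨Prod.ext (by omega) (by omega), rfl, by linarith⟩
  · exact (int_not (m := b.1 - a.1) (by push_cast; linarith) (by push_cast; linarith)).elim
  · right
    have k1 : b.1 - a.1 = 1 := int_one (by push_cast; linarith) (by push_cast; linarith)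
    have k2 : a.2 - b.2 = 0 := by exact_mod_cast sub_eq_zero.2 e2
    constructor <;> refine Prod.ext ?_ ?_ <;> simp only [dir0, dir2, Prod.fst_add, Prod.snd_add] <;>
      omega
  · exact (int_not (m := b.1 - a.1) (by push_cast; linarith) (by push_cast; linarith)).elim
  · exact (int_not (m := a.1 - b.1) (by push_cast; linarith) (by push_cast; linarith)).elim
  · left
    have k1 : a.2 - b.2 = 0 := int_zero (by push_cast; linarith) (by push_cast; linarith)
    have k2 : a.1 - b.1 = 0 := by exact_mod_cast sub_eq_zero.2 e1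
    have k3 : (a.2 : ℝ) = b.2 := by exact_mod_cast sub_eq_zero.1 k1
    exact ⟨Prod.ext (by omega) (by omega), rfl, by linarith⟩
  · exact (int_not (m := b.1 - a.1) (by push_cast; linarith) (by push_cast; linarith)).elim
  · right
    have k1 : b.2 - a.2 = 1 := int_one (by push_cast; linarith) (by push_cast; linarith)
    have k2 : a.1 - b.1 = 0 := by exact_mod_cast sub_eq_zero.2 e1
    constructor <;> refine Prod.ext ?_ ?_ <;> simp only [dir1, dir3, Prod.fst_add, Prod.snd_add] <;>
      omega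
  · right
    have k1 : a.1 - b.1 = 1 := int_one (by push_cast; linarith) (by push_cast; linarith)
    have k2 : a.2 - b.2 = 0 := by exact_mod_cast sub_eq_zero.2 e2
    constructor <;> refine Prod.ext ?_ ?_ <;> simp only [dir0, dir2, Prod.fst_add, Prod.snd_add] <;>
      omega
  · exact (int_not (m := a.1 - b.1) (by push_cast; linarith) (by push_cast; linarith)).elim
  · left
    have k1 : a.1 - b.1 = 0 := int_zero (by push_cast; linarith) (by push_cast; linarith)
    have k2 : a.2 - b.2 = 0 := by exact_mod_cast sub_eq_zero.2 e2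
    have k3 : (a.1 : ℝ) = b.1 := by exact_mod_cast sub_eq_zero.1 k1
    exact ⟨Prod.ext (by omega) (by omega), rfl, by linarith⟩
  · exact (int_not (m := a.1 - b.1) (by push_cast; linarith) (by push_cast; linarith)).elim
  · exact (int_not (m := a.1 - b.1) (by push_cast; linarith) (by push_cast; linarith)).elim
  · right
    have k1 : a.2 - b.2 = 1 := int_one (by push_cast; linarith) (by push_cast; linarith)
    have k2 : a.1 - b.1 = 0 := by exact_mod_cast sub_eq_zero.2 e1
    constructor <;> refine Prod.ext ?_ ?_ <;> simp only [dir1, dir3, Prod.fst_add, Prod.snd_add] <;>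
      omega
  · exact (int_not (m := b.1 - a.1) (by push_cast; linarith) (by push_cast; linarith)).elim
  · left
    have k1 : a.2 - b.2 = 0 := int_zero (by push_cast; linarith) (by push_cast; linarith)
    have k2 : a.1 - b.1 = 0 := by exact_mod_cast sub_eq_zero.2 e1
    have k3 : (a.2 : ℝ) = b.2 := by exact_mod_cast sub_eq_zero.1 k1
    exact ⟨Prod.ext (by omega) (by omega), rfl, by linarith⟩

/-- The form of the points of the curve. -/
theorem lin_grid_form {a : ℕ → ℤ × ℤ} {M : ℕ} (hs : ∀ j < M, ∃ r, a (j + 1) = a j + dir r)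
    {s : ℝ} (hs' : s ∈ Icc (0 : ℝ) M) :
    (∃ j ≤ M, s = j ∧ lin (fun j => pt (a j)) s = pt (a j)) ∨
      ∃ j < M, ∃ r, (j : ℝ) < s ∧ s < j + 1 ∧ a (j + 1) = a j + dir r ∧
        lin (fun j => pt (a j)) s = epn (a j) (s - j) r := by
  have h1 := Nat.floor_le hs'.1
  have h2 := Nat.lt_floor_add_one s
  have h3 : ⌊s⌋₊ ≤ M := by exact_mod_cast h1.trans hs'.2
  rcases h1.lt_or_eq with h1 | h1
  · right
    have h4 : ⌊s⌋₊ < M := by exact_mod_cast h1.trans_le hs'.2
    obtain ⟨r, hr⟩ := hs _ h4
    refine ⟨_, h4, r, h1, h2, hr, ?_⟩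
    rw [lin_eq _ _ (Or.inl h1.le) h2.le]
    simp only [hr, pt_add, epn]
    ring
  · left
    refine ⟨_, h3, h1.symm, ?_⟩
    rw [← h1, lin_nat, Nat.floor_natCast]

/-- **Nearest-neighbour paths through different points are simple curves.** -/
theorem lin_grid_injOn {a : ℕ → ℤ × ℤ} {M : ℕ} (hs : ∀ j < M, ∃ r, a (j + 1) = a j + dir r)
    (hi : ∀ i ≤ M, ∀ j ≤ M, a i = a j → i = j) :
    InjOn (lin fun j => pt (a j)) (Icc 0 (M : ℝ)) := by
  intro s hsm t htm h
  rcases lin_grid_form hs hsm with ⟨j, hj, e, hj'⟩ | ⟨j, hj, r, l1, l2, hr, hj'⟩ <;>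
  rcases lin_grid_form hs htm with ⟨i, hi', e', hi''⟩ | ⟨i, hi', r', l1', l2', hr', hi''⟩
  · rw [hj', hi''] at h
    rw [e, e', hi _ hj _ hi' (pt_inj h)]
  · rw [hj', hi''] at h
    exact absurd h.symm (epn_ne_pt _ (by linarith) (by linarith))
  · rw [hj', hi''] at h
    exact absurd h (epn_ne_pt _ (by linarith) (by linarith))
  · rw [hj', hi''] at h
    rcases epn_eq _ _ (by linarith) (by linarith) (by linarith) (by linarith) h with
      ⟨k1, -, k3⟩ | ⟨k1, k2⟩
    · have := hi _ hj.le _ hi'.le k1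
      subst this
      linarith
    · rw [← hr'] at k1
      rw [← hr] at k2
      have m1 := hi _ hj.le _ hi' k1
      have m2 := hi _ hi'.le _ hj k2
      omega

end Vale.Agent.P167.E2
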