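import Vale.Agent.P167.E6.Defs

/-!
# P167, block E2: the medial rule, faces around the vertices of the polygon
-/

set_option linter.unusedSimpArgs false

namespace Vale.Agent.P167.E2

open Vale.Agent.P167.E6

/-! ### Directions and faces -/

theorem forall4 {P : Fin 4 → Prop} (h0 : P 0) (h1 : P 1) (h2 : P 2) (h3 : P 3) (r : Fin 4) :
    P r := by
  fin_cases r
  exacts [h0, h1, h2, h3]

theorem dir0 : dir 0 = (1, 0) := rfl
theorem dir1 : dir 1 = (0, 1) := rfl
theorem dir2 : dir 2 = (-1, 0) := rfl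
theorem dir3 : dir 3 = (0, -1) := rfl

theorem face0 (v : ℤ × ℤ) : face v 0 = (v.1, v.2) := by simp [face]
theorem face1 (v : ℤ × ℤ) : face v 1 = (v.1 - 1, v.2) := by
  apply Prod.ext <;> simp [face] ; rfl
theorem face2 (v : ℤ × ℤ) : face v 2 = (v.1 - 1, v.2 - 1) := by
  apply Prod.ext <;> simp [face] <;> rfl
theorem face3 (v : ℤ × ℤ) : face v 3 = (v.1, v.2 - 1) := by
  apply Prod.ext <;> simp [face] ; rfl

theorem f4_01 : (0 : Fin 4) + 1 = 1 := rfl
theorem f4_11 : (1 : Fin 4) + 1 = 2 := rfl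
theorem f4_21 : (2 : Fin 4) + 1 = 3 := rfl
theorem f4_31 : (3 : Fin 4) + 1 = 0 := rfl
theorem f4_02 : (0 : Fin 4) + 2 = 2 := rfl
theorem f4_12 : (1 : Fin 4) + 2 = 3 := rfl
theorem f4_22 : (2 : Fin 4) + 2 = 0 := rfl
theorem f4_32 : (3 : Fin 4) + 2 = 1 := rfl
theorem f4_03 : (0 : Fin 4) + 3 = 3 := rfl
theorem f4_13 : (1 : Fin 4) + 3 = 0 := rfl
theorem f4_23 : (2 : Fin 4) + 3 = 1 := rfl
theorem f4_33 : (3 : Fin 4) + 3 = 2 := rfl
theorem f4_0m : (0 : Fin 4) - 1 = 3 := rfl
theorem f4_1m : (1 : Fin 4) - 1 = 0 := rfl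
theorem f4_2m : (2 : Fin 4) - 1 = 1 := rfl
theorem f4_3m : (3 : Fin 4) - 1 = 2 := rfl

theorem dir_add_two (r : Fin 4) : dir (r + 2) = -dir r := by
  revert r
  decide

theorem dir_add_two' (r : Fin 4) (v : ℤ × ℤ) : v + dir r + dir (r + 2) = v := by
  rw [dir_add_two, add_neg_cancel_right]

theorem dir_inj : Function.Injective dir := by
  unfold Function.Injective
  decide

theorem dir_ne_zero (r : Fin 4) : dir r ≠ 0 := by
  revert r
  decide

theorem add_dir_ne (v : ℤ × ℤ) (r : Fin 4) : v + dir r ≠ v := by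
  intro h
  exact dir_ne_zero r (by simpa using h)

theorem add_dir_inj {v : ℤ × ℤ} {r s : Fin 4} (h : v + dir r = v + dir s) : r = s :=
  dir_inj (add_left_cancel h)

/-- The left face of the directed edge `v → v + dir r`, seen from its end. -/
theorem face_left (v : ℤ × ℤ) (r : Fin 4) : face (v + dir r) (r + 1) = face v r := by
  revert r
  refine forall4 ?_ ?_ ?_ ?_ <;> simp only [dir0, dir1, dir2, dir3, face0, face1, face2, face3, f4_01, f4_11, f4_21, f4_31, f4_02,
      f4_12, f4_22, f4_32, f4_03, f4_13, f4_23, f4_33, f4_0m, f4_1m, f4_2m, f4_3m, Prod.fst_add,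
      Prod.snd_add, Prod.ext_iff, Prod.fst_neg, Prod.snd_neg, Sym2.eq_iff, Prod.fst_zero,
      Prod.snd_zero, true_or, or_true, true_and, and_true] at * <;> omega

/-- The right face of the directed edge `v → v + dir r`, seen from its end. -/
theorem face_right (v : ℤ × ℤ) (r : Fin 4) : face (v + dir r) (r + 2) = face v (r - 1) := by
  revert r
  refine forall4 ?_ ?_ ?_ ?_ <;> simp only [dir0, dir1, dir2, dir3, face0, face1, face2, face3, f4_01, f4_11, f4_21, f4_31, f4_02,
      f4_12, f4_22, f4_32, f4_03, f4_13, f4_23, f4_33, f4_0m, f4_1m, f4_2m, f4_3m, Prod.fst_add,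
      Prod.snd_add, Prod.ext_iff, Prod.fst_neg, Prod.snd_neg, Sym2.eq_iff, Prod.fst_zero,
      Prod.snd_zero, true_or, or_true, true_and, and_true] at * <;> omega

theorem sub_one_eq (r : Fin 4) : r - 1 = r + 3 := by
  fin_cases r <;> rfl

/-- The vertices of the closed domain. -/
def verts (S : Finset (ℤ × ℤ)) : Finset (ℤ × ℤ) :=
  S.biUnion fun f => {f, f + (1, 0), f + (0, 1), f + (1, 1)}

theorem mem_verts {S : Finset (ℤ × ℤ)} {v : ℤ × ℤ} : v ∈ verts S ↔ ∃ r, face v r ∈ S := by
  unfold verts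
  simp only [Finset.mem_biUnion, Finset.mem_insert, Finset.mem_singleton]
  constructor
  · rintro ⟨f, hf, h | h | h | h⟩
    · exact ⟨0, by convert hf using 1; simp only [dir0, dir1, dir2, dir3, face0, face1, face2, face3, f4_01, f4_11, f4_21, f4_31, f4_02,
        f4_12, f4_22, f4_32, f4_03, f4_13, f4_23, f4_33, f4_0m, f4_1m, f4_2m, f4_3m, Prod.fst_add,
        Prod.snd_add, Prod.ext_iff, Prod.fst_neg, Prod.snd_neg, Sym2.eq_iff, Prod.fst_zero,
        Prod.snd_zero, true_or, or_true, true_and, and_true] at *; omega⟩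
    · exact ⟨1, by convert hf using 1; simp only [dir0, dir1, dir2, dir3, face0, face1, face2, face3, f4_01, f4_11, f4_21, f4_31, f4_02,
        f4_12, f4_22, f4_32, f4_03, f4_13, f4_23, f4_33, f4_0m, f4_1m, f4_2m, f4_3m, Prod.fst_add,
        Prod.snd_add, Prod.ext_iff, Prod.fst_neg, Prod.snd_neg, Sym2.eq_iff, Prod.fst_zero,
        Prod.snd_zero, true_or, or_true, true_and, and_true] at *; omega⟩
    · exact ⟨3, by convert hf using 1; simp only [dir0, dir1, dir2, dir3, face0, face1, face2, face3, f4_01, f4_11, f4_21, f4_31, f4_02,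
        f4_12, f4_22, f4_32, f4_03, f4_13, f4_23, f4_33, f4_0m, f4_1m, f4_2m, f4_3m, Prod.fst_add,
        Prod.snd_add, Prod.ext_iff, Prod.fst_neg, Prod.snd_neg, Sym2.eq_iff, Prod.fst_zero,
        Prod.snd_zero, true_or, or_true, true_and, and_true] at *; omega⟩
    · exact ⟨2, by convert hf using 1; simp only [dir0, dir1, dir2, dir3, face0, face1, face2, face3, f4_01, f4_11, f4_21, f4_31, f4_02,
        f4_12, f4_22, f4_32, f4_03, f4_13, f4_23, f4_33, f4_0m, f4_1m, f4_2m, f4_3m, Prod.fst_add,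
        Prod.snd_add, Prod.ext_iff, Prod.fst_neg, Prod.snd_neg, Sym2.eq_iff, Prod.fst_zero,
        Prod.snd_zero, true_or, or_true, true_and, and_true] at *; omega⟩
  · rintro ⟨r, hr⟩
    refine ⟨_, hr, ?_⟩
    clear hr
    revert r
    refine forall4 ?_ ?_ ?_ ?_ <;> simp only [dir0, dir1, dir2, dir3, face0, face1, face2, face3, f4_01, f4_11, f4_21, f4_31, f4_02,
        f4_12, f4_22, f4_32, f4_03, f4_13, f4_23, f4_33, f4_0m, f4_1m, f4_2m, f4_3m, Prod.fst_add,
        Prod.snd_add, Prod.ext_iff, Prod.fst_neg, Prod.snd_neg, Sym2.eq_iff, Prod.fst_zero,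
        Prod.snd_zero, true_or, or_true, true_and, and_true] at * <;> omega

theorem mem_edges {S : Finset (ℤ × ℤ)} {v : ℤ × ℤ} (r : Fin 4) :
    s(v, v + dir r) ∈ edges S ↔ face v r ∈ S ∨ face v (r - 1) ∈ S := by
  unfold edges
  simp only [Finset.mem_biUnion, Finset.mem_insert, Finset.mem_singleton]
  constructor
  · rintro ⟨f, hf, h⟩
    have : f = face v r ∨ f = face v (r - 1) := by
      clear hf
      revert r
      refine forall4 ?_ ?_ ?_ ?_ <;> intro h <;> simp only [dir0, dir1, dir2, dir3, face0, face1, face2, face3, f4_01, f4_11, f4_21, f4_31, f4_02,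
          f4_12, f4_22, f4_32, f4_03, f4_13, f4_23, f4_33, f4_0m, f4_1m, f4_2m, f4_3m, Prod.fst_add,
          Prod.snd_add, Prod.ext_iff, Prod.fst_neg, Prod.snd_neg, Sym2.eq_iff, Prod.fst_zero,
          Prod.snd_zero, true_or, or_true, true_and, and_true] at * <;> omega
    rcases this with e | e
    · exact Or.inl (e ▸ hf)
    · exact Or.inr (e ▸ hf)
  · rintro (h | h)
    · refine ⟨_, h, ?_⟩
      clear h
      revert r
      refine forall4 ?_ ?_ ?_ ?_ <;> simp only [dir0, dir1, dir2, dir3, face0, face1, face2, face3, f4_01, f4_11, f4_21, f4_31, f4_02,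
          f4_12, f4_22, f4_32, f4_03, f4_13, f4_23, f4_33, f4_0m, f4_1m, f4_2m, f4_3m, Prod.fst_add,
          Prod.snd_add, Prod.ext_iff, Prod.fst_neg, Prod.snd_neg, Sym2.eq_iff, Prod.fst_zero,
          Prod.snd_zero, true_or, or_true, true_and, and_true] at * <;> omega
    · refine ⟨_, h, ?_⟩
      clear h
      revert r
      refine forall4 ?_ ?_ ?_ ?_ <;> simp only [dir0, dir1, dir2, dir3, face0, face1, face2, face3, f4_01, f4_11, f4_21, f4_31, f4_02,
          f4_12, f4_22, f4_32, f4_03, f4_13, f4_23, f4_33, f4_0m, f4_1m, f4_2m, f4_3m, Prod.fst_add,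
          Prod.snd_add, Prod.ext_iff, Prod.fst_neg, Prod.snd_neg, Sym2.eq_iff, Prod.fst_zero,
          Prod.snd_zero, true_or, or_true, true_and, and_true] at * <;> omega

/-! ### The medial rule is a permutation -/

theorem fin4_1 (r : Fin 4) : r - 1 + 1 = r := by revert r; decide
theorem fin4_2 (r : Fin 4) : r + 1 - 1 = r := by revert r; decide
theorem fin4_3 (r : Fin 4) : r - 1 + 2 = r + 1 := by revert r; decide
theorem fin4_4 (r : Fin 4) : r + 1 + 2 = r - 1 := by revert r; decide
theorem fin4_5 (r : Fin 4) : r + 1 + 1 - 1 = r + 1 := by revert r; decide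

/-- The edge of the lattice at whose midpoint the medial edge starts. -/
def behind (c : Medial) : Sym2 (ℤ × ℤ) := s(c.1, c.1 + dir c.2)

open Classical in
/-- The medial edge before. -/
noncomputable def prev (ω : Set (Sym2 (ℤ × ℤ))) (c : Medial) : Medial :=
  if behind c ∈ ω then (c.1 + dir c.2, c.2 + 1) else (c.1, c.2 - 1)

variable {ω : Set (Sym2 (ℤ × ℤ))} {c : Medial}

theorem next_open (h : ahead c ∈ ω) : next ω c = (c.1 + dir (c.2 + 1), c.2 - 1) := if_pos h

theorem next_closed (h : ahead c ∉ ω) : next ω c = (c.1, c.2 + 1) := if_neg h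

theorem prev_open (h : behind c ∈ ω) : prev ω c = (c.1 + dir c.2, c.2 + 1) := if_pos h

theorem prev_closed (h : behind c ∉ ω) : prev ω c = (c.1, c.2 - 1) := if_neg h

theorem behind_next (ω : Set (Sym2 (ℤ × ℤ))) (c : Medial) : behind (next ω c) = ahead c := by
  by_cases h : ahead c ∈ ω
  · rw [next_open h]
    have h1 : c.1 + dir (c.2 + 1) + dir (c.2 - 1) = c.1 := by
      rw [← fin4_4, dir_add_two']
    simp only [behind, ahead, h1]
    exact Sym2.eq_swap
  · rw [next_closed h]
    rfl

theorem ahead_prev (ω : Set (Sym2 (ℤ × ℤ))) (c : Medial) : ahead (prev ω c) = behind c := by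
  by_cases h : behind c ∈ ω
  · rw [prev_open h]
    have h1 : c.1 + dir c.2 + dir (c.2 + 1 + 1) = c.1 := by
      have : c.2 + 1 + 1 = c.2 + 2 := by
        generalize c.2 = r
        revert r
        decide
      rw [this, dir_add_two']
    simp only [behind, ahead, h1]
    exact Sym2.eq_swap
  · rw [prev_closed h]
    simp only [behind, ahead, fin4_1]

theorem prev_next (ω : Set (Sym2 (ℤ × ℤ))) (c : Medial) : prev ω (next ω c) = c := by
  have h0 := behind_next ω c
  by_cases h : ahead c ∈ ω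
  · rw [prev_open (h0 ▸ h), next_open h]
    have h1 : c.1 + dir (c.2 + 1) + dir (c.2 - 1) = c.1 := by
      rw [← fin4_4, dir_add_two']
    simp only [h1, fin4_1]
  · rw [prev_closed (h0 ▸ h), next_closed h]
    simp only [fin4_2]

theorem next_prev (ω : Set (Sym2 (ℤ × ℤ))) (c : Medial) : next ω (prev ω c) = c := by
  have h0 := ahead_prev ω c
  by_cases h : behind c ∈ ω
  · rw [next_open (h0 ▸ h), prev_open h]
    have h1 : c.1 + dir c.2 + dir (c.2 + 1 + 1) = c.1 := by
      have : c.2 + 1 + 1 = c.2 + 2 := by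
        generalize c.2 = r
        revert r
        decide
      rw [this, dir_add_two']
    simp only [h1, fin4_2]
  · rw [next_closed (h0 ▸ h), prev_closed h]
    simp only [fin4_1]

theorem next_injective (ω : Set (Sym2 (ℤ × ℤ))) : Function.Injective (next ω) :=
  Function.LeftInverse.injective (prev_next ω)

/-- The face on the right of the medial edge. -/
def fc (c : Medial) : ℤ × ℤ := face c.1 c.2

/-- Along an open edge the face does not change. -/
theorem fc_next_open (h : ahead c ∈ ω) : fc (next ω c) = fc c := by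
  rw [next_open h]
  simp only [fc]
  rw [← fin4_4, face_right, fin4_2]

/-- The next vertex is in the domain. -/
theorem next_mem {S : Finset (ℤ × ℤ)} (hω : ω ⊆ edges S) (hc : c.1 ∈ verts S) :
    (next ω c).1 ∈ verts S := by
  by_cases h : ahead c ∈ ω
  · rw [next_open h]
    have h1 := (mem_edges (c.2 + 1)).1 (hω h)
    rw [mem_verts]
    rcases h1 with h1 | h1
    · exact ⟨_, by rw [face_left]; exact h1⟩
    · exact ⟨_, by rw [face_right]; exact h1⟩
  · rw [next_closed h]
    exact hc

theorem iter_mem {S : Finset (ℤ × ℤ)} (hω : ω ⊆ edges S) (hc : c.1 ∈ verts S) (j : ℕ) :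
    ((next ω)^[j] c).1 ∈ verts S := by
  induction j with
  | zero => exact hc
  | succ j ih =>
    rw [Function.iterate_succ_apply']
    exact next_mem hω ih

/-- The orbits are finite. -/
theorem exists_period {S : Finset (ℤ × ℤ)} (hω : ω ⊆ edges S) (hc : c.1 ∈ verts S) :
    ∃ t, 0 < t ∧ (next ω)^[t] c = c := by
  classical
  let B : Finset Medial := verts S ×ˢ Finset.univ
  have h1 : ∀ j ∈ Finset.range (B.card + 1), (next ω)^[j] c ∈ B := fun j _ =>
    Finset.mem_product.2 ⟨iter_mem hω hc j, Finset.mem_univ _⟩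
  obtain ⟨i, hi, j, hj, hij, he⟩ := Finset.exists_ne_map_eq_of_card_lt_of_maps_to
    (by rw [Finset.card_range]; exact Nat.lt_succ_self _) h1
  wlog hlt : i < j generalizing i j
  · exact this j hj i hi hij.symm he.symm (lt_of_le_of_ne (not_lt.1 hlt) hij.symm)
  refine ⟨j - i, by omega, ?_⟩
  have h2 : (next ω)^[i] ((next ω)^[j - i] c) = (next ω)^[i] c := by
    rw [← Function.iterate_add_apply, he]
    congr 2
    omega
  exact (next_injective ω).iterate i h2

/-- Going around the orbit. -/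
theorem exists_back {S : Finset (ℤ × ℤ)} (hω : ω ⊆ edges S) (hc : c.1 ∈ verts S) (a : ℕ) :
    ∃ b, 0 < b ∧ (next ω)^[b] ((next ω)^[a] c) = c := by
  obtain ⟨t, ht, he⟩ := exists_period hω hc
  have h1 : ∀ k : ℕ, (next ω)^[k * t] c = c := by
    intro k
    induction k with
    | zero => simp
    | succ k ih =>
      rw [Nat.succ_mul, Function.iterate_add_apply, he, ih]
  refine ⟨(a + 1) * t - a, ?_, ?_⟩
  · have : a + 1 ≤ (a + 1) * t := Nat.le_mul_of_pos_right _ ht
    omega
  · have h2 : a ≤ (a + 1) * t := (Nat.le_succ a).trans (Nat.le_mul_of_pos_right _ ht)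
    rw [← Function.iterate_add_apply, Nat.sub_add_cancel h2]
    exact h1 _

end Vale.Agent.P167.E2
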