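import Vale.Agent.P167.E2.Pol

/-!
# P167, block E2: the interface as a path of medial edges; left and right chains
-/

namespace Vale.Agent.P167.E2

open Vale.Agent.P167.E6

variable {n : ℕ} {p : ZMod n → ℤ × ℤ} {S : Finset (ℤ × ℤ)} {k : ℕ} {A : Finset (Sym2 (ℤ × ℤ))}

theorem cast_inj {a b : ℕ} (hn : n ≠ 0) (ha : a < n) (hb : b < n)
    (h : (a : ZMod n) = (b : ZMod n)) : a = b := by
  have : NeZero n := ⟨hn⟩
  have h1 := congrArg ZMod.val h
  rwa [ZMod.val_natCast_of_lt ha, ZMod.val_natCast_of_lt hb] at h1

/-- The orbit of the start. -/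
noncomputable def run (p : ZMod n → ℤ × ℤ) (k : ℕ) (A : Finset (Sym2 (ℤ × ℤ))) (j : ℕ) : Medial :=
  (next (wiredOpen p k A))^[j] (cs p)

theorem run_zero : run p k A 0 = cs p := rfl

theorem run_succ (j : ℕ) : run p k A (j + 1) = next (wiredOpen p k A) (run p k A j) := by
  unfold run
  rw [Function.iterate_succ_apply']

theorem run_add (i j : ℕ) :
    run p k A (i + j) = (next (wiredOpen p k A))^[j] (run p k A i) := by
  unfold run
  rw [← Function.iterate_add_apply, add_comm]

open Classical in
/-- The index of the exit. -/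
noncomputable def len (p : ZMod n → ℤ × ℤ) (k : ℕ) (A : Finset (Sym2 (ℤ × ℤ))) : ℕ :=
  if h : ∃ b, 0 < b ∧ run p k A b = ce p k then Nat.find h else 0

section

variable (hp : IsPolygon p) (hS : Encloses p S) (hk : k < n) (hA : A ⊆ edges S)
include hp hS hk hA

theorem len_pos : 0 < len p k A := by
  classical
  have h : ∃ b, 0 < b ∧ run p k A b = ce p k := exists_exit hp hS hk hA
  unfold len
  rw [dif_pos h]
  exact (Nat.find_spec h).1

theorem run_len : run p k A (len p k A) = ce p k := by
  classical
  have h : ∃ b, 0 < b ∧ run p k A b = ce p k := exists_exit hp hS hk hA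
  unfold len
  rw [dif_pos h]
  exact (Nat.find_spec h).2

theorem len_min {j : ℕ} (h0 : 0 < j) (hj : run p k A j = ce p k) : len p k A ≤ j := by
  classical
  have h : ∃ b, 0 < b ∧ run p k A b = ce p k := exists_exit hp hS hk hA
  unfold len
  rw [dif_pos h]
  exact Nat.find_min' h ⟨h0, hj⟩

theorem run_ne {j : ℕ} (h0 : 0 < j) (hj : j < len p k A) : run p k A j ≠ ce p k := fun h =>
  absurd (len_min hp hS hk hA h0 h) (not_le.2 hj)

omit hk in
theorem run_mem (j : ℕ) : (run p k A j).1 ∈ verts S :=
  iter_mem (wired_sub hp hS hA) (p_mem_verts hp hS _) j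

/-- The medial edges before the exit are different. -/
theorem run_inj {i j : ℕ} (hi : i < len p k A) (hj : j < len p k A)
    (h : run p k A i = run p k A j) : i = j := by
  wlog hlt : i < j generalizing i j
  · rcases (not_lt.1 hlt).lt_or_eq with h1 | h1
    · exact (this hj hi h.symm h1).symm
    · exact h1.symm
  exfalso
  -- the orbit has period `j - i`
  have h1 : run p k A (j - i) = run p k A 0 := by
    have h2 : (next (wiredOpen p k A))^[i] (run p k A (j - i)) =
        (next (wiredOpen p k A))^[i] (run p k A 0) := by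
      rw [← run_add, ← run_add, zero_add, Nat.sub_add_cancel hlt.le]
      exact h.symm
    exact (next_injective _).iterate i h2
  have h3 : run p k A (len p k A) = run p k A (len p k A - (j - i)) := by
    have h4 : len p k A = (j - i) + (len p k A - (j - i)) := by omega
    conv_lhs => rw [h4, run_add, h1, ← run_add, zero_add]
  have h5 := len_min hp hS hk hA (j := len p k A - (j - i)) (by omega)
    (by rw [← h3, run_len hp hS hk hA])
  omega

omit hk hA in
theorem fc_cs : fc (cs p) ∉ S := by
  have := (enc_out hp hS (i := -1)).2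
  exact this

omit hk hA in
theorem fc_ce : fc (ce p k) ∉ S := (enc_in hp hS (i := (k : ZMod n))).1

omit hS hk hA in
theorem cs_ahead : ahead (cs p) = s(p (-1), p 0) := by
  unfold ahead cs
  simp only [fin4_1]
  rw [← ro_spec hp, neg_add_cancel]

omit hS hk hA in
theorem ce_behind : behind (ce p k) = s(p (k : ZMod n), p ((k : ZMod n) - 1)) := by
  unfold behind ce
  simp only
  rw [ri_spec hp]

/-- The exit is not the first step. -/
theorem two_le_len (h0 : 0 < k) : 2 ≤ len p k A := by
  have h1 := len_pos hp hS hk hA
  by_contra hc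
  have h2 : len p k A = 1 := by omega
  have h3 := run_len hp hS hk hA
  rw [h2, run_succ, run_zero] at h3
  by_cases ho : ahead (cs p) ∈ wiredOpen p k A
  · rw [next_open ho] at h3
    have h4 := congrArg Prod.fst h3
    simp only [cs, ce, fin4_1] at h4
    rw [← ro_spec hp, neg_add_cancel] at h4
    have h5 := hp.2.1 h4
    have h6 : (0 : ℕ) = k := cast_inj (by omega) (by omega) hk (by simpa using h5)
    omega
  · rw [next_closed ho] at h3
    have h4 := fc_ce (k := k) hp hS
    rw [← h3] at h4
    apply h4
    simp only [fc, cs, fin4_1]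
    exact (enc_out hp hS).1

end

end Vale.Agent.P167.E2
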